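import Mathlib

/-!
# P177: the eigenflag filtration (abstract form)

`P` is a commutative ring acting on an additive group `E`, `T j t` (for `t : Fin j → Fin n`) are the
Pluecker coordinates of an eigenflag and `M s` is a family of additive subgroups of `E` indexed by a
group `G` of degrees, with `T j t • M s ≤ M (s + d j)`.

The filtration of `(M s)^n` by the kernels `K j s` of the wedge with the `j`-th Pluecker vector has the
graded pieces `M (s + d j - d (j+1))`.
-/

namespace Vale.Agent.P177.Flag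

open Finset

variable {P E G : Type*} [CommRing P] [AddCommGroup E] [Module P E] [AddCommGroup G] {n : ℕ}

/-- The wedge of a vector `v` with a vector `T` of the `j`-th exterior power, in coordinates. -/
def wdg {j : ℕ} (T : (Fin j → Fin n) → P) (v : Fin n → E) (t : Fin (j + 1) → Fin n) : E :=
  ∑ k : Fin (j + 1), ((-1) ^ (k : ℕ) * T (fun i => t (k.succAbove i))) • v (t k)

theorem wdg_add {j : ℕ} (T : (Fin j → Fin n) → P) (v w : Fin n → E) (t : Fin (j + 1) → Fin n) :
    wdg T (v + w) t = wdg T v t + wdg T w t := by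
  simp [wdg, smul_add, Finset.sum_add_distrib]

theorem wdg_zero {j : ℕ} (T : (Fin j → Fin n) → P) (t : Fin (j + 1) → Fin n) :
    wdg T (0 : Fin n → E) t = 0 := by
  simp [wdg]

theorem wdg_neg {j : ℕ} (T : (Fin j → Fin n) → P) (v : Fin n → E) (t : Fin (j + 1) → Fin n) :
    wdg T (-v) t = - wdg T v t := by
  simp [wdg]

theorem wdg_smul {j : ℕ} (T : (Fin j → Fin n) → P) (r : P) (v : Fin n → E)
    (t : Fin (j + 1) → Fin n) : wdg T (r • v) t = r • wdg T v t := by
  simp only [wdg, Pi.smul_apply, Finset.smul_sum]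
  refine Finset.sum_congr rfl fun k _ => ?_
  rw [smul_comm]

theorem wdg_sum {j : ℕ} {ι : Type*} (S : Finset ι) (T : (Fin j → Fin n) → P)
    (v : ι → Fin n → E) (t : Fin (j + 1) → Fin n) :
    wdg T (∑ a ∈ S, v a) t = ∑ a ∈ S, wdg T (v a) t := by
  classical
  induction S using Finset.induction_on with
  | empty => simp [wdg_zero]
  | insert a S ha ih => rw [Finset.sum_insert ha, Finset.sum_insert ha, wdg_add, ih]

/-- Wedge of a vector with coordinates `(u i) • e`. -/
theorem wdg_smul_const {j : ℕ} (T : (Fin j → Fin n) → P) (u : Fin n → P) (e : E)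
    (t : Fin (j + 1) → Fin n) : wdg T (fun i => u i • e) t = wdg T u t • e := by
  simp only [wdg, Finset.sum_smul, smul_smul, smul_eq_mul]

theorem wdg_zero_deg (T : (Fin 0 → Fin n) → P) (hT : ∀ t, T t = 1) (v : Fin n → E)
    (t : Fin 1 → Fin n) : wdg T v t = v (t 0) := by
  simp [wdg, hT]

/-- Expansion of the wedge at a tuple `cons i τ`. -/
theorem wdg_cons {j : ℕ} (T : (Fin (j + 1) → Fin n) → P) (v : Fin n → E) (i : Fin n)
    (τ : Fin (j + 1) → Fin n) :
    wdg T v (Fin.cons i τ) = T τ • v i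
      - ∑ k : Fin (j + 1), ((-1) ^ (k : ℕ) * T (Fin.cons i (fun l => τ (k.succAbove l)))) •
          v (τ k) := by
  rw [wdg, Fin.sum_univ_succ]
  have h0 : (fun a : Fin (j + 1) => (Fin.cons i τ : Fin (j + 2) → Fin n) ((0 : Fin (j+2)).succAbove a))
      = τ := by
    funext a; simp
  rw [h0]
  simp only [Fin.val_zero, pow_zero, one_mul, Fin.cons_zero, Fin.val_succ, Fin.cons_succ]
  rw [sub_eq_add_neg, ← Finset.sum_neg_distrib]
  congr 1
  refine Finset.sum_congr rfl fun k _ => ?_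
  have h1 : (fun a : Fin (j + 1) => (Fin.cons i τ : Fin (j + 2) → Fin n) (k.succ.succAbove a))
      = Fin.cons i (fun l => τ (k.succAbove l)) := by
    funext a
    refine Fin.cases ?_ (fun b => ?_) a
    · simp
    · simp
  rw [h1, pow_succ]
  simp [mul_comm, neg_smul]

/-- If `v ∧ T = 0` then `T τ • v` is a combination of the contractions of `T`. -/
theorem smul_of_wdg_eq_zero {j : ℕ} (T : (Fin (j + 1) → Fin n) → P) (v : Fin n → E)
    (hv : ∀ t, wdg T v t = 0) (τ : Fin (j + 1) → Fin n) :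
    T τ • v = ∑ k : Fin (j + 1), fun i =>
      ((-1) ^ (k : ℕ) * T (Fin.cons i (fun l => τ (k.succAbove l)))) • v (τ k) := by
  funext i
  have h := wdg_cons T v i τ
  rw [hv] at h
  rw [Finset.sum_apply]
  rw [Pi.smul_apply]
  exact (sub_eq_zero.mp h.symm)

/-- The relations satisfied by the Pluecker coordinates of a full flag. -/
structure FlagRel (T : ∀ j : ℕ, (Fin j → Fin n) → P) : Prop where
  zero : ∀ t, T 0 t = 1
  same : ∀ (j : ℕ) (ρ : Fin j → Fin n) (t : Fin (j + 2) → Fin n),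
    wdg (T (j + 1)) (fun i => T (j + 1) (Fin.cons i ρ)) t = 0
  incl : ∀ (j : ℕ) (ρ : Fin j → Fin n) (t : Fin (j + 3) → Fin n),
    wdg (T (j + 2)) (fun i => T (j + 1) (Fin.cons i ρ)) t = 0
  step : ∀ (j : ℕ) (ρ : Fin j → Fin n) (t : Fin (j + 1) → Fin n),
    wdg (T j) (fun i => T (j + 1) (Fin.cons i ρ)) t = T j ρ * T (j + 1) t

/-- `X` acts on the `j`-th graded piece of the flag by `c j`. -/
def EigRel (T : ∀ j : ℕ, (Fin j → Fin n) → P) (X : Matrix (Fin n) (Fin n) P) (c : ℕ → P) : Prop :=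
  ∀ (j : ℕ) (ρ : Fin j → Fin n) (t : Fin (j + 1) → Fin n),
    wdg (T j) (fun i => (∑ l, X i l * T (j + 1) (Fin.cons l ρ))
      - c j * T (j + 1) (Fin.cons i ρ)) t = 0

/-- A graded family of subgroups on which the coordinates act. The coordinates `T j` with `n < j`
are usually zero, so that injectivity is only required for `j ≤ n`. -/
structure Graded (T : ∀ j : ℕ, (Fin j → Fin n) → P) (d : ℕ → G) (M : G → AddSubgroup E) :
    Prop where
  d_zero : d 0 = 0
  mem : ∀ (j : ℕ) (t : Fin j → Fin n) (s : G) (e : E), e ∈ M s → T j t • e ∈ M (s + d j)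
  inj : ∀ (j : ℕ), j ≤ n → ∀ (s : G) (e : E), e ∈ M s → (∀ t, T j t • e = 0) → e = 0

/-- The kernel filtration. -/
def K (T : ∀ j : ℕ, (Fin j → Fin n) → P) (M : G → AddSubgroup E) (j : ℕ) (s : G) :
    AddSubgroup (Fin n → E) where
  carrier := {v | (∀ i, v i ∈ M s) ∧ ∀ t, wdg (T j) v t = 0}
  zero_mem' := ⟨fun _ => (M s).zero_mem, fun t => wdg_zero _ t⟩
  add_mem' := by
    rintro v w ⟨h1, h2⟩ ⟨h3, h4⟩
    exact ⟨fun i => (M s).add_mem (h1 i) (h3 i), fun t => by rw [wdg_add, h2, h4, add_zero]⟩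
  neg_mem' := by
    rintro v ⟨h1, h2⟩
    exact ⟨fun i => (M s).neg_mem (h1 i), fun t => by rw [wdg_neg, h2, neg_zero]⟩

variable {T : ∀ j : ℕ, (Fin j → Fin n) → P} {d : ℕ → G} {M : G → AddSubgroup E}

omit [AddCommGroup G] in
theorem mem_K {j : ℕ} {s : G} {v : Fin n → E} :
    v ∈ K T M j s ↔ (∀ i, v i ∈ M s) ∧ ∀ t, wdg (T j) v t = 0 := Iff.rfl

theorem Graded.wdg_mem (hM : Graded T d M) {j : ℕ} {s : G} {v : Fin n → E}
    (hv : ∀ i, v i ∈ M s) (t : Fin (j + 1) → Fin n) : wdg (T j) v t ∈ M (s + d j) := by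
  refine AddSubgroup.sum_mem _ fun k _ => ?_
  rw [mul_smul]
  rcases neg_one_pow_eq_or P (k : ℕ) with h | h
  · rw [h, one_smul]; exact hM.mem _ _ _ _ (hv _)
  · rw [h, neg_smul, one_smul]; exact AddSubgroup.neg_mem _ (hM.mem _ _ _ _ (hv _))

omit [AddCommGroup G] in
theorem K_zero (hT : FlagRel T) (s : G) : K T M 0 s = ⊥ := by
  rw [eq_bot_iff]
  rintro v ⟨-, h2⟩
  rw [AddSubgroup.mem_bot]
  funext i
  have := h2 (fun _ => i)
  rwa [wdg_zero_deg _ hT.zero] at this

/-- `K j ≤ K (j+1)`. -/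
theorem K_mono (hT : FlagRel T) (hM : Graded T d M) (j : ℕ) (hj : j < n) (s : G) :
    K T M j s ≤ K T M (j + 1) s := by
  rintro v ⟨h1, h2⟩
  refine ⟨h1, fun t => ?_⟩
  match j, hj, h2, t with
  | 0, hj, h2, t =>
      have hv : v = 0 := by
        have : v ∈ K T M 0 s := ⟨h1, h2⟩
        rw [K_zero hT] at this
        exact (AddSubgroup.mem_bot).mp this
      rw [hv, wdg_zero]
  | j + 1, hj, h2, t =>
      refine hM.inj (j + 1) hj.le _ _ (hM.wdg_mem h1 t) fun τ => ?_
      rw [← wdg_smul, smul_of_wdg_eq_zero _ _ h2 τ, wdg_sum]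
      refine Finset.sum_eq_zero fun k _ => ?_
      have : (fun i => ((-1) ^ (k : ℕ) * T (j + 1) (Fin.cons i (fun l => τ (k.succAbove l)))) •
          v (τ k)) = ((-1 : P) ^ (k : ℕ)) • (fun i =>
            T (j + 1) (Fin.cons i (fun l => τ (k.succAbove l))) • v (τ k)) := by
        funext i; simp [mul_smul]
      rw [this, wdg_smul, wdg_smul_const, hT.incl, zero_smul, smul_zero]

omit [AddCommGroup G] in
/-- A vector in `K (j+1)` multiplied by a Pluecker coordinate is a combination of contractions. -/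
theorem smul_of_mem_K {j : ℕ} {s : G} {v : Fin n → E} (hv : v ∈ K T M (j + 1) s)
    (τ : Fin (j + 1) → Fin n) :
    T (j + 1) τ • v = ∑ k : Fin (j + 1), ((-1 : P) ^ (k : ℕ)) • (fun i =>
      T (j + 1) (Fin.cons i (fun l => τ (k.succAbove l))) • v (τ k)) := by
  rw [smul_of_wdg_eq_zero _ _ hv.2 τ]
  refine Finset.sum_congr rfl fun k _ => ?_
  funext i; simp [mul_smul]

/-- Action of a matrix with entries in `P` on vectors with entries in `E`. -/
def act (X : Matrix (Fin n) (Fin n) P) (v : Fin n → E) : Fin n → E :=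
  fun i => ∑ l, X i l • v l

theorem act_smul (X : Matrix (Fin n) (Fin n) P) (r : P) (v : Fin n → E) :
    act X (r • v) = r • act X v := by
  funext i
  simp only [act, Pi.smul_apply, Finset.smul_sum]
  exact Finset.sum_congr rfl fun l _ => smul_comm _ _ _

theorem act_sum (X : Matrix (Fin n) (Fin n) P) {ι : Type*} (S : Finset ι) (v : ι → Fin n → E) :
    act X (∑ a ∈ S, v a) = ∑ a ∈ S, act X (v a) := by
  funext i
  simp only [act, Finset.sum_apply, Finset.smul_sum]
  exact Finset.sum_comm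

theorem act_smul_const (X : Matrix (Fin n) (Fin n) P) (u : Fin n → P) (e : E) :
    act X (fun i => u i • e) = fun i => (∑ l, X i l * u l) • e := by
  funext i
  simp only [act, Finset.sum_smul, smul_smul]

omit [AddCommGroup G] in
theorem act_mem {X : Matrix (Fin n) (Fin n) P} {s : G}
    (hX : ∀ i l, ∀ e ∈ M s, X i l • e ∈ M s) {v : Fin n → E} (hv : ∀ i, v i ∈ M s) (i : Fin n) :
    act X v i ∈ M s :=
  AddSubgroup.sum_mem _ fun l _ => hX i l _ (hv l)

/-- `(X - c j)` maps `K (j+1)` to `K j`. -/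
theorem eig_mem (hM : Graded T d M) {X : Matrix (Fin n) (Fin n) P}
    {c : ℕ → P} (hX : EigRel T X c) {j : ℕ} (hj : j < n) {s : G} (hXM : ∀ i l, ∀ e ∈ M s, X i l • e ∈ M s)
    (hcM : ∀ e ∈ M s, c j • e ∈ M s) {v : Fin n → E} (hv : v ∈ K T M (j + 1) s) :
    act X v - c j • v ∈ K T M j s := by
  have hmem : ∀ i, (act X v - c j • v) i ∈ M s := fun i =>
    (M s).sub_mem (act_mem hXM hv.1 i) (hcM _ (hv.1 i))
  refine ⟨hmem, fun t => ?_⟩
  refine hM.inj (j + 1) hj _ _ (hM.wdg_mem hmem t) fun τ => ?_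
  rw [← wdg_smul, smul_sub, ← act_smul, smul_comm (T (j + 1) τ) (c j) v, smul_of_mem_K hv τ,
    act_sum, Finset.smul_sum, ← Finset.sum_sub_distrib, wdg_sum]
  refine Finset.sum_eq_zero fun k _ => ?_
  rw [act_smul, smul_comm (c j), ← smul_sub, wdg_smul, act_smul_const]
  have : ((fun i => (∑ l, X i l * T (j + 1) (Fin.cons l (fun l => τ (k.succAbove l)))) • v (τ k)) -
      c j • fun i => T (j + 1) (Fin.cons i (fun l => τ (k.succAbove l))) • v (τ k))
      = fun i => ((∑ l, X i l * T (j + 1) (Fin.cons l (fun l => τ (k.succAbove l))))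
        - c j * T (j + 1) (Fin.cons i (fun l => τ (k.succAbove l)))) • v (τ k) := by
    funext i
    simp only [Pi.sub_apply, Pi.smul_apply, sub_smul, mul_smul]
  rw [this, wdg_smul_const, hX, zero_smul, smul_zero]

/-- The wedge of `v ∈ K (j+1)` with `T j` is proportional to `T (j+1)`. -/
theorem prop_of_mem_K (hT : FlagRel T) (hM : Graded T d M) {j : ℕ} (hj : j < n) {s : G}
    {v : Fin n → E}
    (hv : v ∈ K T M (j + 1) s) (t t' : Fin (j + 1) → Fin n) :
    T (j + 1) t' • wdg (T j) v t = T (j + 1) t • wdg (T j) v t' := by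
  have key : T (j + 1) t' • wdg (T j) v t - T (j + 1) t • wdg (T j) v t' = 0 := by
    refine hM.inj (j + 1) hj ((s + d j) + d (j + 1)) _ ?_ fun τ => ?_
    · exact (M _).sub_mem (hM.mem _ _ _ _ (hM.wdg_mem hv.1 t))
        (hM.mem _ _ _ _ (hM.wdg_mem hv.1 t'))
    · have h1 : ∀ t : Fin (j + 1) → Fin n, T (j + 1) τ • wdg (T j) v t =
          ∑ k : Fin (j + 1), ((-1 : P) ^ (k : ℕ)) •
            ((T j (fun l => τ (k.succAbove l)) * T (j + 1) t) • v (τ k)) := by
        intro t
        rw [← wdg_smul, smul_of_mem_K hv τ, wdg_sum]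
        refine Finset.sum_congr rfl fun k _ => ?_
        rw [wdg_smul, wdg_smul_const, hT.step]
      rw [smul_sub, smul_comm (T (j + 1) τ) (T (j + 1) t'), smul_comm (T (j + 1) τ) (T (j + 1) t),
        h1, h1, Finset.smul_sum, Finset.smul_sum, ← Finset.sum_sub_distrib]
      refine Finset.sum_eq_zero fun k _ => ?_
      rw [smul_comm (T (j + 1) t'), smul_comm (T (j + 1) t), ← smul_sub, smul_smul, smul_smul]
      rw [show T (j + 1) t' * (T j (fun l => τ (k.succAbove l)) * T (j + 1) t)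
        = T (j + 1) t * (T j (fun l => τ (k.succAbove l)) * T (j + 1) t') by ring]
      simp
  exact sub_eq_zero.mp key

/-- Exactness of the Koszul cocycle complex of `T j` at the places 0 and 1 (colon property) at
the degree `s`: a family of elements of `M s` proportional to `T j` is a multiple of it. -/
def Col (T : ∀ j : ℕ, (Fin j → Fin n) → P) (d : ℕ → G) (M : G → AddSubgroup E) (j : ℕ) (s : G) :
    Prop :=
  ∀ β : (Fin j → Fin n) → E, (∀ t, β t ∈ M s) →
    (∀ t t', T j t' • β t = T j t • β t') → ∃ a ∈ M (s - d j), ∀ t, β t = T j t • a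

/-- The Skoda property at the degree `s`. -/
def Sko (T : ∀ j : ℕ, (Fin j → Fin n) → P) (d : ℕ → G) (M : G → AddSubgroup E) (j : ℕ) (s : G) :
    Prop :=
  ∀ a ∈ M s, ∃ g : (Fin j → Fin n) → E, (∀ ρ, g ρ ∈ M (s - d j)) ∧ a = ∑ ρ, T j ρ • g ρ

theorem exists_coord (hT : FlagRel T) (hM : Graded T d M) {j : ℕ} (hj : j < n) {s : G}
    (hcol : Col T d M (j + 1) (s + d j)) {v : Fin n → E} (hv : v ∈ K T M (j + 1) s) :
    ∃ a ∈ M (s + d j - d (j + 1)), ∀ t, wdg (T j) v t = T (j + 1) t • a :=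
  hcol _ (hM.wdg_mem hv.1) fun t t' => prop_of_mem_K hT hM hj hv t t'

theorem coord_unique (hM : Graded T d M) {j : ℕ} (hj : j ≤ n) {s s' : G} {a b : E}
    (ha : a ∈ M s) (hb : b ∈ M s') (hss : s = s') (h : ∀ t, T j t • a = T j t • b) : a = b := by
  subst hss
  rw [← sub_eq_zero]
  exact hM.inj j hj s _ ((M s).sub_mem ha hb) fun t => by rw [smul_sub, h, sub_self]

/-- Surjectivity: every element of `M (s + d j - d (j+1))` is the coordinate of an element of
`K (j+1) s`. -/
theorem exists_of_coord (hT : FlagRel T) (hM : Graded T d M) {j : ℕ} {s : G}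
    (hsko : Sko T d M j (s + d j - d (j + 1))) {a : E} (ha : a ∈ M (s + d j - d (j + 1))) :
    ∃ v ∈ K T M (j + 1) s, ∀ t, wdg (T j) v t = T (j + 1) t • a := by
  obtain ⟨g, hg, rfl⟩ := hsko a ha
  have hg' : ∀ ρ, g ρ ∈ M (s - d (j + 1)) := by
    intro ρ
    have := hg ρ
    rwa [show s + d j - d (j + 1) - d j = s - d (j + 1) by abel] at this
  refine ⟨∑ ρ, fun i => T (j + 1) (Fin.cons i ρ) • g ρ, ⟨fun i => ?_, fun t => ?_⟩, fun t => ?_⟩
  · rw [Finset.sum_apply]
    refine AddSubgroup.sum_mem _ fun ρ _ => ?_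
    have := hM.mem (j + 1) (Fin.cons i ρ) _ _ (hg' ρ)
    rwa [sub_add_cancel] at this
  · rw [wdg_sum]
    refine Finset.sum_eq_zero fun ρ _ => ?_
    rw [wdg_smul_const, hT.same, zero_smul]
  · rw [wdg_sum, Finset.smul_sum]
    refine Finset.sum_congr rfl fun ρ _ => ?_
    rw [wdg_smul_const, hT.step, smul_smul, mul_comm]

end Vale.Agent.P177.Flag
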