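import Vale.Agent.P177.Flag.Core

/-!
# P177: the eigenflag filtration when the relations hold only after multiplication by `η`

Same as `Flag/Core.lean`, but every relation is only assumed after multiplication by an element
`η` (the properties `inj`, `Col`, `Sko` are exact). The errors are killed by explicit powers
of `η`.
-/

namespace Vale.Agent.P177.Flag

open Finset

variable {P E G : Type*} [CommRing P] [AddCommGroup E] [Module P E] [AddCommGroup G] {n : ℕ}

/-- The relations of the Pluecker coordinates of a flag up to `η`. -/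
structure FlagRelE (η : P) (T : ∀ j : ℕ, (Fin j → Fin n) → P) : Prop where
  zero : ∀ t, T 0 t = 1
  same : ∀ (j : ℕ) (ρ : Fin j → Fin n) (t : Fin (j + 2) → Fin n),
    η * wdg (T (j + 1)) (fun i => T (j + 1) (Fin.cons i ρ)) t = 0
  incl : ∀ (j : ℕ) (ρ : Fin j → Fin n) (t : Fin (j + 3) → Fin n),
    η * wdg (T (j + 2)) (fun i => T (j + 1) (Fin.cons i ρ)) t = 0
  step : ∀ (j : ℕ) (ρ : Fin j → Fin n) (t : Fin (j + 1) → Fin n),
    η * wdg (T j) (fun i => T (j + 1) (Fin.cons i ρ)) t = η * (T j ρ * T (j + 1) t)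

/-- The eigenvalue relations up to `η`. -/
def EigRelE (η : P) (T : ∀ j : ℕ, (Fin j → Fin n) → P) (X : Matrix (Fin n) (Fin n) P)
    (c : ℕ → P) : Prop :=
  ∀ (j : ℕ) (ρ : Fin j → Fin n) (t : Fin (j + 1) → Fin n),
    η * wdg (T j) (fun i => (∑ l, X i l * T (j + 1) (Fin.cons l ρ))
      - c j * T (j + 1) (Fin.cons i ρ)) t = 0

variable {η : P} {T : ∀ j : ℕ, (Fin j → Fin n) → P} {d : ℕ → G} {M : G → AddSubgroup E}

omit [AddCommGroup G] in
theorem K_zeroE (hT : FlagRelE η T) (s : G) : K T M 0 s = ⊥ := by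
  rw [eq_bot_iff]
  rintro v ⟨-, h2⟩
  rw [AddSubgroup.mem_bot]
  funext i
  have := h2 (fun _ => i)
  rwa [wdg_zero_deg _ hT.zero] at this

/-- `η • K j ≤ K (j+1)`. -/
theorem K_monoE (hT : FlagRelE η T) (hM : Graded T d M) {j : ℕ} (hj : j < n) {s : G}
    (hη : ∀ e ∈ M s, η • e ∈ M s) {v : Fin n → E} (hv : v ∈ K T M j s) :
    η • v ∈ K T M (j + 1) s := by
  obtain ⟨h1, h2⟩ := hv
  refine ⟨fun i => hη _ (h1 i), fun t => ?_⟩
  match j, hj, h2, t with
  | 0, hj, h2, t =>
      have hv : v = 0 := by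
        have : v ∈ K T M 0 s := ⟨h1, h2⟩
        rw [K_zeroE hT] at this
        exact (AddSubgroup.mem_bot).mp this
      rw [hv, smul_zero, wdg_zero]
  | j + 1, hj, h2, t =>
      refine hM.inj (j + 1) hj.le _ _ (hM.wdg_mem (fun i => hη _ (h1 i)) t) fun τ => ?_
      rw [← wdg_smul, smul_comm, smul_of_wdg_eq_zero _ _ h2 τ, wdg_smul, wdg_sum,
        Finset.smul_sum]
      refine Finset.sum_eq_zero fun k _ => ?_
      have : (fun i => ((-1) ^ (k : ℕ) * T (j + 1) (Fin.cons i (fun l => τ (k.succAbove l)))) •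
          v (τ k)) = ((-1 : P) ^ (k : ℕ)) • (fun i =>
            T (j + 1) (Fin.cons i (fun l => τ (k.succAbove l))) • v (τ k)) := by
        funext i; simp [mul_smul]
      rw [this, wdg_smul, wdg_smul_const, smul_comm, smul_smul η, hT.incl, zero_smul, smul_zero]

/-- `η • (X - c j)` maps `K (j+1)` to `K j`. -/
theorem eig_memE (hM : Graded T d M) {X : Matrix (Fin n) (Fin n) P}
    {c : ℕ → P} (hX : EigRelE η T X c) {j : ℕ} (hj : j < n) {s : G}
    (hη : ∀ e ∈ M s, η • e ∈ M s) (hXM : ∀ i l, ∀ e ∈ M s, X i l • e ∈ M s)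
    (hcM : ∀ e ∈ M s, c j • e ∈ M s) {v : Fin n → E} (hv : v ∈ K T M (j + 1) s) :
    η • (act X v - c j • v) ∈ K T M j s := by
  have hmem : ∀ i, (η • (act X v - c j • v)) i ∈ M s := fun i =>
    hη _ ((M s).sub_mem (act_mem hXM hv.1 i) (hcM _ (hv.1 i)))
  refine ⟨hmem, fun t => ?_⟩
  refine hM.inj (j + 1) hj _ _ (hM.wdg_mem hmem t) fun τ => ?_
  rw [← wdg_smul, smul_comm, smul_sub, ← act_smul, smul_comm (T (j + 1) τ) (c j) v,
    smul_of_mem_K hv τ, act_sum, Finset.smul_sum, ← Finset.sum_sub_distrib, wdg_smul, wdg_sum,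
    Finset.smul_sum]
  refine Finset.sum_eq_zero fun k _ => ?_
  rw [act_smul, smul_comm (c j), ← smul_sub, wdg_smul, act_smul_const]
  have : ((fun i => (∑ l, X i l * T (j + 1) (Fin.cons l (fun l => τ (k.succAbove l)))) • v (τ k)) -
      c j • fun i => T (j + 1) (Fin.cons i (fun l => τ (k.succAbove l))) • v (τ k))
      = fun i => ((∑ l, X i l * T (j + 1) (Fin.cons l (fun l => τ (k.succAbove l))))
        - c j * T (j + 1) (Fin.cons i (fun l => τ (k.succAbove l)))) • v (τ k) := by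
    funext i
    simp only [Pi.sub_apply, Pi.smul_apply, sub_smul, mul_smul]
  rw [this, wdg_smul_const, smul_comm, smul_smul η, hX, zero_smul, smul_zero]

/-- The wedge of `η • v`, `v ∈ K (j+1)`, with `T j` is proportional to `T (j+1)`. -/
theorem prop_of_mem_KE (hT : FlagRelE η T) (hM : Graded T d M) {j : ℕ} (hj : j < n) {s : G}
    (hη : ∀ s' : G, ∀ e ∈ M s', η • e ∈ M s')
    {v : Fin n → E} (hv : v ∈ K T M (j + 1) s) (t t' : Fin (j + 1) → Fin n) :
    T (j + 1) t' • wdg (T j) (η • v) t = T (j + 1) t • wdg (T j) (η • v) t' := by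
  have key : T (j + 1) t' • wdg (T j) (η • v) t - T (j + 1) t • wdg (T j) (η • v) t' = 0 := by
    have hv1 : ∀ i, (η • v) i ∈ M s := fun i => hη _ _ (hv.1 i)
    refine hM.inj (j + 1) hj ((s + d j) + d (j + 1)) _ ?_ fun τ => ?_
    · exact (M _).sub_mem (hM.mem _ _ _ _ (hM.wdg_mem hv1 t))
        (hM.mem _ _ _ _ (hM.wdg_mem hv1 t'))
    · have h1 : ∀ t : Fin (j + 1) → Fin n, T (j + 1) τ • wdg (T j) (η • v) t =
          ∑ k : Fin (j + 1), ((-1 : P) ^ (k : ℕ)) •
            ((η * (T j (fun l => τ (k.succAbove l)) * T (j + 1) t)) • v (τ k)) := by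
        intro t
        rw [← wdg_smul, smul_comm, smul_of_mem_K hv τ, wdg_smul, wdg_sum, Finset.smul_sum]
        refine Finset.sum_congr rfl fun k _ => ?_
        rw [wdg_smul, wdg_smul_const, smul_comm η, smul_smul η, hT.step]
      rw [smul_sub, smul_comm (T (j + 1) τ) (T (j + 1) t'), smul_comm (T (j + 1) τ) (T (j + 1) t),
        h1, h1, Finset.smul_sum, Finset.smul_sum, ← Finset.sum_sub_distrib]
      refine Finset.sum_eq_zero fun k _ => ?_
      rw [smul_comm (T (j + 1) t'), smul_comm (T (j + 1) t), ← smul_sub, smul_smul, smul_smul]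
      rw [show T (j + 1) t' * (η * (T j (fun l => τ (k.succAbove l)) * T (j + 1) t))
        = T (j + 1) t * (η * (T j (fun l => τ (k.succAbove l)) * T (j + 1) t')) by ring]
      simp
  exact sub_eq_zero.mp key

theorem exists_coordE (hT : FlagRelE η T) (hM : Graded T d M) {j : ℕ} (hj : j < n) {s : G}
    (hη : ∀ s' : G, ∀ e ∈ M s', η • e ∈ M s')
    (hcol : Col T d M (j + 1) (s + d j)) {v : Fin n → E} (hv : v ∈ K T M (j + 1) s) :
    ∃ a ∈ M (s + d j - d (j + 1)), ∀ t, wdg (T j) (η • v) t = T (j + 1) t • a :=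
  hcol _ (hM.wdg_mem fun i => hη _ _ (hv.1 i)) fun t t' => prop_of_mem_KE hT hM hj hη hv t t'

/-- Surjectivity up to `η`. -/
theorem exists_of_coordE (hT : FlagRelE η T) (hM : Graded T d M) {j : ℕ} {s : G}
    (hη : ∀ s' : G, ∀ e ∈ M s', η • e ∈ M s')
    (hsko : Sko T d M j (s + d j - d (j + 1))) {a : E} (ha : a ∈ M (s + d j - d (j + 1))) :
    ∃ v ∈ K T M (j + 1) s, ∀ t, wdg (T j) v t = T (j + 1) t • (η • a) := by
  obtain ⟨g, hg, rfl⟩ := hsko a ha
  have hg' : ∀ ρ, g ρ ∈ M (s - d (j + 1)) := by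
    intro ρ
    have := hg ρ
    rwa [show s + d j - d (j + 1) - d j = s - d (j + 1) by abel] at this
  refine ⟨η • ∑ ρ, fun i => T (j + 1) (Fin.cons i ρ) • g ρ, ⟨fun i => ?_, fun t => ?_⟩,
    fun t => ?_⟩
  · rw [Pi.smul_apply, Finset.sum_apply]
    refine hη _ _ (AddSubgroup.sum_mem _ fun ρ _ => ?_)
    have := hM.mem (j + 1) (Fin.cons i ρ) _ _ (hg' ρ)
    rwa [sub_add_cancel] at this
  · rw [wdg_smul, wdg_sum, Finset.smul_sum]
    refine Finset.sum_eq_zero fun ρ _ => ?_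
    rw [wdg_smul_const, smul_smul, hT.same, zero_smul]
  · rw [wdg_smul, wdg_sum, Finset.smul_sum, Finset.smul_sum, Finset.smul_sum]
    refine Finset.sum_congr rfl fun ρ _ => ?_
    rw [wdg_smul_const, smul_smul, hT.step, smul_smul, smul_smul]
    congr 1
    ring

end Vale.Agent.P177.Flag
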