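import Vale.Agent.P177.PI.FEB
import Vale.Agent.P177.Flag.Eta

/-!
# P177: the eigenflag data of a graded family of ideals, relations up to `η`

`FDataE` is `FData` (PI/FEB.lean) with all relations multiplied by `η : W`. It yields the
hypotheses of `Flag/Eta.lean` for `P = E = F.E`, `T = TT F τ d`, `M = MF F good`.
-/

namespace Vale.Agent.P177.PI

open Vale.Agent.P177.Flag

universe u v

variable {W : Type u} [CommRing W] {G : Type v} [AddCommGroup G] {n : ℕ}

/-- the data of a flag, with relations modulo `N` after multiplication by `η`. -/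
structure FDataE (F : RFam W G) (τ : ∀ j : ℕ, (Fin j → Fin n) → W) (d : ℕ → G)
    (good : G → Prop) (η : W) : Prop where
  d_zero : d 0 = 0
  mem : ∀ j t, τ j t ∈ F.M (d j)
  zero : ∀ t, τ 0 t = 1
  same : ∀ (j : ℕ) (ρ : Fin j → Fin n) (t : Fin (j + 2) → Fin n),
    η * wdg (τ (j + 1)) (fun i => τ (j + 1) (Fin.cons i ρ)) t ∈ F.N (d (j + 1) + d (j + 1))
  incl : ∀ (j : ℕ) (ρ : Fin j → Fin n) (t : Fin (j + 3) → Fin n),
    η * wdg (τ (j + 2)) (fun i => τ (j + 1) (Fin.cons i ρ)) t ∈ F.N (d (j + 2) + d (j + 1))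
  step : ∀ (j : ℕ) (ρ : Fin j → Fin n) (t : Fin (j + 1) → Fin n),
    η * (wdg (τ j) (fun i => τ (j + 1) (Fin.cons i ρ)) t - τ j ρ * τ (j + 1) t) ∈
      F.N (d j + d (j + 1))
  top : ∀ (i : Fin n) (t : Fin (n + 1) → Fin n), η * wdg (τ n) (Pi.single i (1 : W)) t ∈ F.N (d n)
  good_add : ∀ s j, good s → good (s + d j)
  inj : ∀ j, j ≤ n → ∀ s, good s → ∀ x ∈ F.M s, (∀ t, τ j t * x ∈ F.N (s + d j)) → x ∈ F.N s

/-- relation of an operator `X` with the scalars `c` modulo `N`, up to `η`. -/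
def EigNE (F : RFam W G) (τ : ∀ j : ℕ, (Fin j → Fin n) → W) (d : ℕ → G) (η : W)
    (X : Matrix (Fin n) (Fin n) W) (c : ℕ → W) : Prop :=
  ∀ (j : ℕ) (ρ : Fin j → Fin n) (t : Fin (j + 1) → Fin n),
    η * wdg (τ j) (fun i => (∑ l, X i l * τ (j + 1) (Fin.cons l ρ))
      - c j * τ (j + 1) (Fin.cons i ρ)) t ∈ F.N (d j + d (j + 1))

variable {F : RFam W G} {τ : ∀ j : ℕ, (Fin j → Fin n) → W} {d : ℕ → G} {good : G → Prop} {η : W}

theorem cls_zero_mul {s : G} (w : W) {x : W} (hx : x ∈ F.M s) :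
    F.cls 0 w * F.cls s x = F.cls s (w * x) := by
  rw [F.cls_mul (F.mem_zero w) hx, zero_add]

theorem cls_zero_smul_mem (w : W) (s' : G) : ∀ e ∈ MF F good s', F.cls 0 w • e ∈ MF F good s' := by
  classical
  intro e he
  by_cases hs' : good s'
  · rw [MF_of_good hs'] at he ⊢
    obtain ⟨x, hx, rfl⟩ := he
    rw [smul_eq_mul, cls_zero_mul w hx]
    exact F.cls_mem_part (Ideal.mul_mem_left _ _ hx)
  · rw [MF, if_neg hs', AddSubgroup.mem_bot] at he
    rw [he, smul_zero]
    exact zero_mem _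

theorem FDataE.flagRelE (h : FDataE F τ d good η) : FlagRelE (F.cls 0 η) (TT F τ d) where
  zero t := by rw [TT, h.zero, h.d_zero, F.cls_one]
  same j ρ t := by
    have h1 := wdg_cls (F := F) (d := d) h.mem (j := j + 1) (s := d (j + 1))
      (v := fun i => τ (j + 1) (Fin.cons i ρ)) (fun i => h.mem _ _) t
    have h2 : F.cls 0 η * wdg (TT F τ d (j + 1))
        (fun i => F.cls (d (j + 1)) (τ (j + 1) (Fin.cons i ρ))) t = 0 := by
      rw [h1, cls_zero_mul η (wdg_mem_M h.mem (fun i => h.mem _ _) t),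
        F.cls_eq_zero_iff (Ideal.mul_mem_left _ _ (wdg_mem_M h.mem (fun i => h.mem _ _) t))]
      exact h.same j ρ t
    exact h2
  incl j ρ t := by
    have h1 := wdg_cls (F := F) (d := d) h.mem (j := j + 2) (s := d (j + 1))
      (v := fun i => τ (j + 1) (Fin.cons i ρ)) (fun i => h.mem _ _) t
    have h2 : F.cls 0 η * wdg (TT F τ d (j + 2))
        (fun i => F.cls (d (j + 1)) (τ (j + 1) (Fin.cons i ρ))) t = 0 := by
      rw [h1, cls_zero_mul η (wdg_mem_M h.mem (fun i => h.mem _ _) t),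
        F.cls_eq_zero_iff (Ideal.mul_mem_left _ _ (wdg_mem_M h.mem (fun i => h.mem _ _) t))]
      exact h.incl j ρ t
    exact h2
  step j ρ t := by
    have h1 := wdg_cls (F := F) (d := d) h.mem (j := j) (s := d (j + 1))
      (v := fun i => τ (j + 1) (Fin.cons i ρ)) (fun i => h.mem _ _) t
    have h2 : F.cls 0 η * wdg (TT F τ d j)
        (fun i => F.cls (d (j + 1)) (τ (j + 1) (Fin.cons i ρ))) t
        = F.cls 0 η * (TT F τ d j ρ * TT F τ d (j + 1) t) := by
      rw [h1, cls_zero_mul η (wdg_mem_M h.mem (fun i => h.mem _ _) t), TT, TT,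
        F.cls_mul (h.mem _ _) (h.mem _ _), cls_zero_mul η (F.mul (h.mem _ _) (h.mem _ _)),
        F.cls_eq_iff (Ideal.mul_mem_left _ _ (wdg_mem_M h.mem (fun i => h.mem _ _) t))
          (Ideal.mul_mem_left _ _ (F.mul (h.mem _ _) (h.mem _ _))), ← mul_sub]
      exact h.step j ρ t
    exact h2

theorem FDataE.graded (h : FDataE F τ d good η) : Graded (TT F τ d) d (MF F good) where
  d_zero := h.d_zero
  mem j t s e he := by
    classical
    by_cases hs : good s
    · rw [MF_of_good hs] at he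
      rw [MF_of_good (h.good_add s j hs)]
      obtain ⟨x, hx, rfl⟩ := he
      rw [smul_eq_mul, TT, F.cls_mul (h.mem _ _) hx]
      have h2 := F.cls_mem_part (F.mul (h.mem j t) hx)
      rw [add_comm (d j) s] at h2 ⊢
      exact h2
    · rw [MF, if_neg hs, AddSubgroup.mem_bot] at he
      rw [he, smul_zero]
      exact zero_mem _
  inj j hj s e he h0 := by
    classical
    by_cases hs : good s
    · rw [MF_of_good hs] at he
      obtain ⟨x, hx, rfl⟩ := he
      rw [F.cls_eq_zero_iff hx]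
      refine h.inj j hj s hs x hx fun t => ?_
      have h1 := h0 t
      rw [smul_eq_mul, TT, F.cls_mul (h.mem _ _) hx, F.cls_eq_zero_iff (F.mul (h.mem _ _) hx),
        add_comm] at h1
      exact h1
    · rw [MF, if_neg hs, AddSubgroup.mem_bot] at he
      exact he

/-- the eigenvalue relations in the graded ring. -/
theorem EigNE.eigRelE (h : FDataE F τ d good η) {X : Matrix (Fin n) (Fin n) W} {c : ℕ → W}
    (hX : EigNE F τ d η X c) :
    EigRelE (F.cls 0 η) (TT F τ d) (fun i l => F.cls 0 (X i l)) (fun j => F.cls 0 (c j)) := by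
  intro j ρ t
  have hv' : ∀ i, (∑ l, X i l * τ (j + 1) (Fin.cons l ρ)) - c j * τ (j + 1) (Fin.cons i ρ) ∈
      F.M (d (j + 1)) := fun i =>
    sub_mem (Ideal.sum_mem _ fun l _ => Ideal.mul_mem_left _ _ (h.mem _ _))
      (Ideal.mul_mem_left _ _ (h.mem _ _))
  have h1 := wdg_cls (F := F) (d := d) h.mem (j := j) (s := d (j + 1)) hv' t
  have h2 : F.cls 0 η * wdg (TT F τ d j) (fun i => F.cls (d (j + 1))
      ((∑ l, X i l * τ (j + 1) (Fin.cons l ρ)) - c j * τ (j + 1) (Fin.cons i ρ))) t = 0 := by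
    rw [h1, cls_zero_mul η (wdg_mem_M h.mem hv' t),
      F.cls_eq_zero_iff (Ideal.mul_mem_left _ _ (wdg_mem_M h.mem hv' t))]
    exact hX j ρ t
  refine Eq.trans ?_ h2
  congr 2
  funext i
  rw [F.cls_sub (Ideal.sum_mem _ fun l _ => Ideal.mul_mem_left _ _ (h.mem _ _))
      (Ideal.mul_mem_left _ _ (h.mem _ _)),
    F.cls_sum _ _ fun l _ => Ideal.mul_mem_left _ _ (h.mem _ _)]
  congr 1
  · exact Finset.sum_congr rfl fun l _ => cls_zero_mul _ (h.mem _ _)
  · exact cls_zero_mul _ (h.mem _ _)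

/-- the colon property in the graded ring. -/
theorem FDataE.col (h : FDataE F τ d good η) {j : ℕ} {s : G} (hs : good s)
    (hs' : good (s - d j)) (hcol : ColN F τ d j s) : Col (TT F τ d) d (MF F good) j s := by
  intro β hβ hpr
  rw [MF_of_good hs] at hβ
  choose b hb hbe using hβ
  obtain ⟨a, ha, hab⟩ := hcol b hb fun t t' => by
    have h1 := hpr t t'
    rw [hbe, hbe, smul_eq_mul, smul_eq_mul, TT, TT, F.cls_mul (h.mem _ _) (hb t),
      F.cls_mul (h.mem _ _) (hb t'),
      F.cls_eq_iff (F.mul (h.mem _ _) (hb t)) (F.mul (h.mem _ _) (hb t'))] at h1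
    rw [add_comm s]
    exact h1
  refine ⟨F.cls (s - d j) a, ?_, fun t => ?_⟩
  · rw [MF_of_good hs']
    exact F.cls_mem_part ha
  · have h2 := F.mul (h.mem j t) ha
    rw [add_sub_cancel] at h2
    rw [hbe, smul_eq_mul, TT, F.cls_mul (h.mem _ _) ha, add_sub_cancel, F.cls_eq_iff (hb t) h2]
    exact hab t

/-- the Skoda property in the graded ring. -/
theorem FDataE.sko (h : FDataE F τ d good η) {j : ℕ} {s : G} (hs : good s)
    (hs' : good (s - d j)) (hsko : SkoN F τ d j s) : Sko (TT F τ d) d (MF F good) j s := by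
  intro a ha
  rw [MF_of_good hs] at ha
  obtain ⟨x, hx, rfl⟩ := ha
  obtain ⟨g, hg, hxg⟩ := hsko x hx
  have h2 : ∀ ρ, τ j ρ * g ρ ∈ F.M s := fun ρ => by
    have := F.mul (h.mem j ρ) (hg ρ)
    rwa [add_sub_cancel] at this
  refine ⟨fun ρ => F.cls (s - d j) (g ρ), fun ρ => ?_, ?_⟩
  · rw [MF_of_good hs']
    exact F.cls_mem_part (hg ρ)
  · have h3 : ∀ ρ, TT F τ d j ρ • F.cls (s - d j) (g ρ) = F.cls s (τ j ρ * g ρ) := fun ρ => by
      rw [smul_eq_mul, TT, F.cls_mul (h.mem _ _) (hg ρ), add_sub_cancel]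
    rw [Finset.sum_congr rfl fun ρ _ => h3 ρ, ← F.cls_sum _ _ fun ρ _ => h2 ρ,
      F.cls_eq_iff hx (Ideal.sum_mem _ fun ρ _ => h2 ρ)]
    exact hxg

/-- the wedge with the top Pluecker vector is killed by `η`. -/
theorem FDataE.top_mem (h : FDataE F τ d good η) {s : G} (hs : good s) {v : Fin n → F.E}
    (hv : ∀ i, v i ∈ MF F good s) (t : Fin (n + 1) → Fin n) :
    F.cls 0 η • wdg (TT F τ d n) v t = 0 := by
  rw [MF_of_good hs] at hv
  choose x hx hxe using hv
  have hvx : v = fun i => F.cls s (x i) := funext hxe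
  rw [hvx, wdg_cls h.mem hx, smul_eq_mul, cls_zero_mul η (wdg_mem_M h.mem hx t),
    F.cls_eq_zero_iff (Ideal.mul_mem_left _ _ (wdg_mem_M h.mem hx t))]
  have h1 : x = ∑ i, x i • (Pi.single i (1 : W) : Fin n → W) := by
    funext k
    rw [Finset.sum_apply]
    simp [Pi.single_apply]
  rw [h1, wdg_sum, Finset.mul_sum]
  refine Ideal.sum_mem _ fun i _ => ?_
  rw [wdg_smul, smul_eq_mul, mul_left_comm, add_comm (d n) s]
  exact F.mulN (hx i) (h.top i t)

/-- the degree `s` part of the graded ring is `M s / N s`. -/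
noncomputable def grPart (F : RFam W G) (s : G) : Gr F s →+ F.part s :=
  QuotientAddGroup.lift _
    { toFun := fun x : F.M s => (⟨F.cls s x, F.cls_mem_part x.2⟩ : F.part s)
      map_zero' := Subtype.ext (F.cls_zero s)
      map_add' := fun x y => Subtype.ext (F.cls_add x.2 y.2) } (by
    intro x hx
    exact Subtype.ext ((F.cls_eq_zero_iff x.2).2 hx))

theorem grPart_mk {s : G} (x : F.M s) :
    ((grPart F s (Submodule.Quotient.mk x) : F.part s) : F.E) = F.cls s x := rfl

theorem grPart_bijective (s : G) : Function.Bijective (grPart F s) := by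
  constructor
  · rw [injective_iff_map_eq_zero]
    intro q hq
    obtain ⟨x, rfl⟩ := Submodule.Quotient.mk_surjective _ q
    have h1 : F.cls s x = 0 := congrArg Subtype.val hq
    rw [F.cls_eq_zero_iff x.2] at h1
    rw [Submodule.Quotient.mk_eq_zero]
    exact h1
  · rintro ⟨_, x, hx, rfl⟩
    exact ⟨Submodule.Quotient.mk ⟨x, hx⟩, Subtype.ext rfl⟩

theorem grPart_smul {s : G} (w : W) (q : Gr F s) :
    ((grPart F s (w • q) : F.part s) : F.E) = F.cls 0 w • ((grPart F s q : F.part s) : F.E) := by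
  obtain ⟨x, rfl⟩ := Submodule.Quotient.mk_surjective _ q
  rw [← Submodule.Quotient.mk_smul, grPart_mk, grPart_mk, smul_eq_mul, cls_zero_mul w x.2]
  rfl

end Vale.Agent.P177.PI
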