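import Vale.Agent.P177.Flag.EtaW
import Vale.Agent.P177.Ap.FlagAp

/-!
# P177: the flag formula for a graded family of pairs of ideals

`W` is a commutative ring (in the application `W(C)`), `F : RFam W G` a family `N s ≤ M s`,
`τ j t ∈ M (d j)` the Pluecker coordinates, relations modulo `N` after multiplication by `η`.
`X` is the `D`-module `(M s / N s) ^ n`, on which `D` acts through matrices over `W`. Then
`θ X = ∑ θ (N_j)`, `N_j` the module `M (s + d j - d (j+1)) / N` with `D` acting through the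
`j`-th eigencharacter.
-/

namespace Vale.Agent.P177.PI

open Vale.Agent.P177.Flag Vale.Agent.P177.Ap

universe u v w

section

variable {W : Type w} [CommRing W] {G : Type v} [AddCommGroup G] {n : ℕ}

variable {F : RFam W G} {τ : ∀ j : ℕ, (Fin j → Fin n) → W} {d : ℕ → G} {good : G → Prop} {η : W}

/-- relation of an operator `X` with the scalars `c` modulo `N`, up to `η`, in degrees `< n`. -/
def EigNA (F : RFam W G) (τ : ∀ j : ℕ, (Fin j → Fin n) → W) (d : ℕ → G) (η : W)
    (X : Matrix (Fin n) (Fin n) W) (c : ℕ → W) : Prop :=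
  ∀ j : ℕ, j < n → ∀ (ρ : Fin j → Fin n) (t : Fin (j + 1) → Fin n),
    η * wdg (τ j) (fun i => (∑ l, X i l * τ (j + 1) (Fin.cons l ρ))
      - c j * τ (j + 1) (Fin.cons i ρ)) t ∈ F.N (d j + d (j + 1))

theorem EigNE.eigNA {X : Matrix (Fin n) (Fin n) W} {c : ℕ → W} (h : EigNE F τ d η X c) :
    EigNA F τ d η X c := fun j _ => h j

theorem EigNA.zero : EigNA F τ d η 0 0 := by
  intro j _ ρ t
  have h1 : (fun i : Fin n => (∑ l, (0 : Matrix (Fin n) (Fin n) W) i l *
      τ (j + 1) (Fin.cons l ρ)) - (0 : ℕ → W) j * τ (j + 1) (Fin.cons i ρ)) = 0 := by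
    funext i
    simp
  rw [h1, wdg_zero, mul_zero]
  exact zero_mem _

theorem EigNA.add {X Y : Matrix (Fin n) (Fin n) W} {a b : ℕ → W} (hX : EigNA F τ d η X a)
    (hY : EigNA F τ d η Y b) : EigNA F τ d η (X + Y) (a + b) := by
  intro j hj ρ t
  have h1 : (fun i : Fin n => (∑ l, (X + Y) i l * τ (j + 1) (Fin.cons l ρ)) -
      (a + b) j * τ (j + 1) (Fin.cons i ρ)) =
      (fun i : Fin n => (∑ l, X i l * τ (j + 1) (Fin.cons l ρ)) -
        a j * τ (j + 1) (Fin.cons i ρ)) +
      (fun i : Fin n => (∑ l, Y i l * τ (j + 1) (Fin.cons l ρ)) -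
        b j * τ (j + 1) (Fin.cons i ρ)) := by
    funext i
    simp only [Pi.add_apply, Matrix.add_apply, add_mul, Finset.sum_add_distrib]
    ring
  rw [h1, wdg_add, mul_add]
  exact add_mem (hX j hj ρ t) (hY j hj ρ t)

theorem EigNA.smul {X : Matrix (Fin n) (Fin n) W} {a : ℕ → W} (w : W)
    (hX : EigNA F τ d η X a) : EigNA F τ d η (w • X) (w • a) := by
  intro j hj ρ t
  have h1 : (fun i : Fin n => (∑ l, (w • X) i l * τ (j + 1) (Fin.cons l ρ)) -
      (w • a) j * τ (j + 1) (Fin.cons i ρ)) =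
      w • (fun i : Fin n => (∑ l, X i l * τ (j + 1) (Fin.cons l ρ)) -
        a j * τ (j + 1) (Fin.cons i ρ)) := by
    funext i
    simp only [Pi.smul_apply, Matrix.smul_apply, smul_eq_mul, mul_sub, Finset.mul_sum, mul_assoc]
  rw [h1, wdg_smul, smul_eq_mul, mul_left_comm]
  exact Ideal.mul_mem_left _ _ (hX j hj ρ t)

theorem EigNA.one (w : W) : EigNA F τ d η (w • (1 : Matrix (Fin n) (Fin n) W)) (fun _ => w) := by
  intro j _ ρ t
  have h1 : (fun i : Fin n => (∑ l, (w • (1 : Matrix (Fin n) (Fin n) W)) i l *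
      τ (j + 1) (Fin.cons l ρ)) - w * τ (j + 1) (Fin.cons i ρ)) = 0 := by
    funext i
    simp [Matrix.smul_apply, Matrix.one_apply]
  rw [h1, wdg_zero, mul_zero]
  exact zero_mem _

theorem FDataE.flagRelA (h : FDataE F τ d good η) : FlagRelA (F.cls 0 η) (TT F τ d) where
  zero := h.flagRelE.zero
  same := h.flagRelE.same
  incl := h.flagRelE.incl
  step j ρ t := by
    rw [mul_sub, h.flagRelE.step j ρ t, sub_self]
  top i t := by
    have hv : ∀ k, (Pi.single i (1 : W) : Fin n → W) k ∈ F.M 0 := fun k => F.mem_zero _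
    have h1 : (Pi.single i (1 : F.E) : Fin n → F.E) =
        fun k => F.cls 0 ((Pi.single i (1 : W) : Fin n → W) k) := by
      funext k
      by_cases hk : k = i
      · subst hk
        rw [Pi.single_eq_same, Pi.single_eq_same, F.cls_one]
      · rw [Pi.single_eq_of_ne hk, Pi.single_eq_of_ne hk, F.cls_zero]
    rw [h1, wdg_cls h.mem hv, cls_zero_mul η (wdg_mem_M h.mem hv t),
      F.cls_eq_zero_iff (Ideal.mul_mem_left _ _ (wdg_mem_M h.mem hv t)), add_zero]
    exact h.top i t

theorem EigNA.eigRelA (h : FDataE F τ d good η) {X : Matrix (Fin n) (Fin n) W} {c : ℕ → W}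
    (hX : EigNA F τ d η X c) :
    EigRelA (F.cls 0 η) (TT F τ d) (fun i l => F.cls 0 (X i l)) (fun j => F.cls 0 (c j)) := by
  intro j hj ρ t
  have hv' : ∀ i, (∑ l, X i l * τ (j + 1) (Fin.cons l ρ)) - c j * τ (j + 1) (Fin.cons i ρ) ∈
      F.M (d (j + 1)) := fun i =>
    sub_mem (Ideal.sum_mem _ fun l _ => Ideal.mul_mem_left _ _ (h.mem _ _))
      (Ideal.mul_mem_left _ _ (h.mem _ _))
  have h1 := wdg_cls (F := F) (d := d) h.mem (j := j) (s := d (j + 1)) hv' t
  have h2 : F.cls 0 η * wdg (TT F τ d j) (fun i => F.cls (d (j + 1))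
      ((∑ l, X i l * τ (j + 1) (Fin.cons l ρ)) - c j * τ (j + 1) (Fin.cons i ρ))) t = 0 := by
    rw [h1, cls_zero_mul η (wdg_mem_M h.mem hv' t),
      F.cls_eq_zero_iff (Ideal.mul_mem_left _ _ (wdg_mem_M h.mem hv' t))]
    exact hX j hj ρ t
  refine Eq.trans ?_ h2
  congr 2
  funext i
  rw [F.cls_sub (Ideal.sum_mem _ fun l _ => Ideal.mul_mem_left _ _ (h.mem _ _))
      (Ideal.mul_mem_left _ _ (h.mem _ _)),
    F.cls_sum _ _ fun l _ => Ideal.mul_mem_left _ _ (h.mem _ _)]
  congr 1
  · exact Finset.sum_congr rfl fun l _ => cls_zero_mul _ (h.mem _ _)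
  · exact cls_zero_mul _ (h.mem _ _)

/-- the inverse of `grPart`. -/
noncomputable def grInv (F : RFam W G) (s : G) : F.part s →+ Gr F s where
  toFun y := ((grPart_bijective (F := F) s).2 y).choose
  map_zero' := (grPart_bijective (F := F) s).1 (by
    rw [((grPart_bijective (F := F) s).2 0).choose_spec, AddMonoidHom.map_zero])
  map_add' x y := (grPart_bijective (F := F) s).1 (by
    rw [((grPart_bijective (F := F) s).2 (x + y)).choose_spec, AddMonoidHom.map_add,
      ((grPart_bijective (F := F) s).2 x).choose_spec,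
      ((grPart_bijective (F := F) s).2 y).choose_spec])

theorem grPart_grInv {s : G} (y : F.part s) : grPart F s (grInv F s y) = y :=
  ((grPart_bijective (F := F) s).2 y).choose_spec

theorem grInv_grPart {s : G} (x : Gr F s) : grInv F s (grPart F s x) = x :=
  (grPart_bijective (F := F) s).1 (grPart_grInv _)

end

section Sum

variable {W : Type w} [CommRing W] {G : Type v} [AddCommGroup G] {n : ℕ}

variable {F : RFam W G} {τ : ∀ j : ℕ, (Fin j → Fin n) → W} {d : ℕ → G} {good : G → Prop} {η : W}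

variable {D : Type u} [CommRing D] {η' q : D}
  {θ : ∀ (X : Type u) [AddCommGroup X] [Module D X], ℝ}
  {Adm : ∀ (X : Type u) [AddCommGroup X] [Module D X], Prop}

/-- **The flag formula, level of ideals.** -/
theorem FDataE.theta_sum (Θ : IsTheta η' q θ Adm) (h : FDataE F τ d good η) (hn : 0 < n) (s : G)
    (hs : good s) (hsj : ∀ j < n, good (s + d j)) (hsj' : ∀ j < n, good (s + d j - d (j + 1)))
    (hsk : ∀ j < n, good (s + d j - d (j + 1) - d j))
    (hcol : ∀ j < n, ColN F τ d (j + 1) (s + d j))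
    (hsko : ∀ j < n, SkoN F τ d j (s + d j - d (j + 1)))
    {X : Type u} [AddCommGroup X] [Module D X] (hq : ∀ x : X, q • x = 0)
    (e : X ≃+ (Fin n → Gr F s))
    (A : D → Matrix (Fin n) (Fin n) W) (hA : ∀ r x i, e (r • x) i = ∑ l, A r i l • e x l)
    (c : D → ℕ → W) (hEig : ∀ r, EigNA F τ d η (A r) (c r))
    (hη' : ∀ x, e (η' • x) = η • e x) (hcη : ∀ j, c η' j = η)
    (N : ℕ → Type u) [∀ j, AddCommGroup (N j)] [∀ j, Module D (N j)]
    (hN : ∀ j < n, Adm (N j)) (hNq : ∀ j < n, ∀ m : N j, q • m = 0)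
    (π : ∀ j, Gr F (s + d j - d (j + 1)) →+ N j) (hπ : ∀ j < n, Function.Surjective (π j))
    (hπ0 : ∀ j < n, ∀ x, π j x = 0 → η • x = 0)
    (hπD : ∀ j < n, ∀ (r : D) (x), π j (c r j • x) = r • π j x) :
    Adm X ∧ θ X = ∑ j ∈ Finset.range n, θ (N j) := by
  classical
  have hpart : ∀ {s' : G}, good s' → MF F good s' = F.part s' := fun h' => MF_of_good h'
  -- the embedding of `X`
  let ι : X →+ (Fin n → F.E) :=
    { toFun := fun x i => ((grPart F s (e x i) : F.part s) : F.E)
      map_zero' := by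
        funext i
        rw [AddEquiv.map_zero, Pi.zero_apply, AddMonoidHom.map_zero]
        rfl
      map_add' := fun x y => by
        funext i
        rw [AddEquiv.map_add, Pi.add_apply, AddMonoidHom.map_add]
        rfl }
  have hι : ∀ x i, ι x i = ((grPart F s (e x i) : F.part s) : F.E) := fun _ _ => rfl
  let π' : ∀ j, MF F good (s + d j - d (j + 1)) →+ N j := fun j =>
    if hj : j < n then
      (π j).comp ((grInv F _).comp (AddSubgroup.inclusion (hpart (hsj' j hj)).le))
    else 0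
  have hπ' : ∀ j (hj : j < n) (x : MF F good (s + d j - d (j + 1))),
      π' j x = π j (grInv F _ ⟨x.1, (hpart (hsj' j hj)).le x.2⟩) := by
    intro j hj x
    simp only [π', dif_pos hj]
    rfl
  refine Θ.flag h.flagRelA h.graded (fun s' => cls_zero_smul_mem η s') hn s
    (fun j hj => ?_) (fun j hj => ?_) hq ι ?_ ?_ ?_
    (fun r => fun i l => F.cls 0 (A r i l)) ?_ (fun r i l => cls_zero_smul_mem _ s)
    (fun r j => F.cls 0 (c r j)) (fun r j s' => cls_zero_smul_mem _ s')
    (fun r => (hEig r).eigRelA h) ?_ (fun j => by rw [hcη]) N hN hNq π' ?_ ?_ ?_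
  · refine h.col (hsj j hj) (hsj' j hj) (hcol j hj)
  · exact h.sko (hsj' j hj) (hsk j hj) (hsko j hj)
  · intro x y hxy
    refine e.injective (funext fun i => (grPart_bijective (F := F) s).1 (Subtype.ext ?_))
    exact congrFun hxy i
  · intro x i
    rw [hpart hs]
    exact (grPart F s (e x i)).2
  · intro v hv
    rw [hpart hs] at hv
    refine ⟨e.symm fun i => grInv F s ⟨v i, hv i⟩, ?_⟩
    funext i
    rw [hι, e.apply_symm_apply, grPart_grInv]
  · intro r x
    funext i
    have h1 : ((grPart F s (e (r • x) i) : F.part s) : F.E) =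
        ∑ l, F.cls 0 (A r i l) • ((grPart F s (e x l) : F.part s) : F.E) := by
      rw [hA, map_sum, AddSubgroup.val_finsetSum]
      exact Finset.sum_congr rfl fun l _ => grPart_smul _ _
    exact h1
  · intro x
    funext i
    rw [hι, hη', Pi.smul_apply, Pi.smul_apply, hι]
    exact grPart_smul _ _
  · intro j hj m
    obtain ⟨x, rfl⟩ := hπ j hj m
    refine ⟨⟨(grPart F _ x : F.part _), (hpart (hsj' j hj)).ge (grPart F _ x).2⟩, ?_⟩
    rw [hπ' j hj]
    congr 1
    exact grInv_grPart x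
  · intro j hj x hx
    rw [hπ' j hj] at hx
    have h1 := hπ0 j hj _ hx
    have h2 := grPart_smul (F := F) η (grInv F _
      (⟨x.1, (hpart (hsj' j hj)).le x.2⟩ : F.part (s + d j - d (j + 1))))
    rw [h1, AddMonoidHom.map_zero, grPart_grInv] at h2
    exact h2.symm
  · intro j hj r x
    rw [hπ' j hj, hπ' j hj, ← hπD j hj]
    congr 1
    refine (grPart_bijective (F := F) _).1 (Subtype.ext ?_)
    rw [grPart_smul, grPart_grInv, grPart_grInv]

end Sum

section Gen

variable {W : Type w} [CommRing W] {G : Type v} [AddCommGroup G] {n : ℕ}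

variable {F : RFam W G} {τ : ∀ j : ℕ, (Fin j → Fin n) → W} {d : ℕ → G} {good : G → Prop} {η : W}

variable {R : Type*} [CommRing R] {D : Type u} [CommRing D] {q : D}
  {θ : ∀ (X : Type u) [AddCommGroup X] [Module D X], ℝ}
  {Adm : ∀ (X : Type u) [AddCommGroup X] [Module D X], Prop}

/-- **The flag formula**, for a ring `D` additively generated by products of elements coming from
`W` and `R` (for example `D = R ⊗ W`). -/
theorem FDataE.theta_sum_gen (iR : R →+* D) (iW : W →+* D)
    (hgen : ∀ y : D, y ∈ AddSubgroup.closure {z : D | ∃ (r : R) (a : W), z = iW a * iR r})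
    (Θ : IsTheta (iW η) q θ Adm)
    (h : FDataE F τ d good η) (hn : 0 < n) (s : G)
    (hs : good s) (hsj : ∀ j < n, good (s + d j)) (hsj' : ∀ j < n, good (s + d j - d (j + 1)))
    (hsk : ∀ j < n, good (s + d j - d (j + 1) - d j))
    (hcol : ∀ j < n, ColN F τ d (j + 1) (s + d j))
    (hsko : ∀ j < n, SkoN F τ d j (s + d j - d (j + 1)))
    {X : Type u} [AddCommGroup X] [Module D X] (hq : ∀ x : X, q • x = 0)
    (e : X ≃+ (Fin n → Gr F s))
    (heW : ∀ (a : W) (x : X), e (iW a • x) = a • e x)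
    (A : R → Matrix (Fin n) (Fin n) W)
    (heR : ∀ (r : R) (x : X) (i), e (iR r • x) i = ∑ l, A r i l • e x l)
    (c : R → ℕ → W) (hEig : ∀ r, EigNA F τ d η (A r) (c r))
    (N : ℕ → Type u) [∀ j, AddCommGroup (N j)] [∀ j, Module D (N j)]
    (hN : ∀ j < n, Adm (N j)) (hNq : ∀ j < n, ∀ m : N j, q • m = 0)
    (π : ∀ j, Gr F (s + d j - d (j + 1)) →+ N j) (hπ : ∀ j < n, Function.Surjective (π j))
    (hπ0 : ∀ j < n, ∀ x, π j x = 0 → η • x = 0)
    (hπW : ∀ j < n, ∀ (a : W) (x), π j (a • x) = iW a • π j x)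
    (hπR : ∀ j < n, ∀ (r : R) (x), π j (c r j • x) = iR r • π j x) :
    Adm X ∧ θ X = ∑ j ∈ Finset.range n, θ (N j) := by
  classical
  have key : ∀ y : D, ∃ (A' : Matrix (Fin n) (Fin n) W) (c' : ℕ → W),
      (∀ (x : X) (i), e (y • x) i = ∑ l, A' i l • e x l) ∧ EigNA F τ d η A' c' ∧
      ∀ j < n, ∀ x, π j (c' j • x) = y • π j x := by
    intro y
    refine AddSubgroup.closure_induction (p := fun y _ =>
      ∃ (A' : Matrix (Fin n) (Fin n) W) (c' : ℕ → W),
      (∀ (x : X) (i), e (y • x) i = ∑ l, A' i l • e x l) ∧ EigNA F τ d η A' c' ∧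
      ∀ j < n, ∀ x, π j (c' j • x) = y • π j x) ?_ ?_ ?_ ?_ (hgen y)
    · rintro _ ⟨r, a, rfl⟩
      refine ⟨a • A r, a • c r, fun x i => ?_, (hEig r).smul a, fun j hj x => ?_⟩
      · rw [mul_smul, heW, Pi.smul_apply, heR, Finset.smul_sum]
        refine Finset.sum_congr rfl fun l _ => ?_
        rw [smul_smul, Matrix.smul_apply, smul_eq_mul]
      · rw [mul_smul, ← hπR j hj, ← hπW j hj, smul_smul, Pi.smul_apply, smul_eq_mul]
    · refine ⟨0, 0, fun x i => ?_, EigNA.zero, fun j _ x => ?_⟩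
      · rw [zero_smul, AddEquiv.map_zero, Pi.zero_apply]
        simp
      · rw [Pi.zero_apply, zero_smul, zero_smul, AddMonoidHom.map_zero]
    · rintro y z _ _ ⟨A1, c1, h1, h2, h3⟩ ⟨A2, c2, h4, h5, h6⟩
      refine ⟨A1 + A2, c1 + c2, fun x i => ?_, h2.add h5, fun j hj x => ?_⟩
      · rw [add_smul, AddEquiv.map_add, Pi.add_apply, h1, h4, ← Finset.sum_add_distrib]
        refine Finset.sum_congr rfl fun l _ => ?_
        rw [Matrix.add_apply, add_smul]
      · rw [Pi.add_apply, add_smul, AddMonoidHom.map_add, h3 j hj, h6 j hj, add_smul]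
    · rintro y _ ⟨A1, c1, h1, h2, h3⟩
      refine ⟨(-1 : W) • A1, (-1 : W) • c1, fun x i => ?_, h2.smul _, fun j hj x => ?_⟩
      · rw [neg_smul, AddEquiv.map_neg, Pi.neg_apply, h1, ← Finset.sum_neg_distrib]
        refine Finset.sum_congr rfl fun l _ => ?_
        rw [Matrix.smul_apply, smul_eq_mul, neg_one_mul, neg_smul]
      · rw [Pi.smul_apply, smul_eq_mul, neg_one_mul, neg_smul, AddMonoidHom.map_neg, h3 j hj,
          neg_smul]
  have key' : ∀ y : D, ∃ (A' : Matrix (Fin n) (Fin n) W) (c' : ℕ → W),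
      (∀ (x : X) (i), e (y • x) i = ∑ l, A' i l • e x l) ∧ EigNA F τ d η A' c' ∧
      (∀ j < n, ∀ x, π j (c' j • x) = y • π j x) ∧
      (y = iW η → ∀ j, c' j = η) := by
    intro y
    by_cases hy : y = iW η
    · refine ⟨η • 1, fun _ => η, fun x i => ?_, EigNA.one η, fun j hj x => ?_, fun _ _ => rfl⟩
      · rw [hy, heW, Pi.smul_apply]
        simp [Matrix.smul_apply, Matrix.one_apply]
      · rw [hy]
        exact hπW j hj η x
    · obtain ⟨A', c', h1, h2, h3⟩ := key y
      exact ⟨A', c', h1, h2, h3, fun h => absurd h hy⟩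
  choose A' c' h1 h2 h3 h4 using key'
  exact FDataE.theta_sum Θ h hn s hs hsj hsj' hsk hcol hsko hq e A' h1 c' h2
    (fun x => heW η x) (h4 _ rfl) N hN hNq π hπ hπ0 (fun j hj r x => h3 r j hj x)

end Gen

open TensorProduct in
theorem tensor_mem_closure {R W : Type*} [CommRing R] [CommRing W] (y : R ⊗[ℤ] W) :
    y ∈ AddSubgroup.closure {z : R ⊗[ℤ] W | ∃ (r : R) (a : W), z =
      (Algebra.TensorProduct.includeRight : W →ₐ[ℤ] R ⊗[ℤ] W) a *
        (Algebra.TensorProduct.includeLeft : R →ₐ[ℤ] R ⊗[ℤ] W) r} := by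
  induction y using TensorProduct.induction_on with
  | zero => exact zero_mem _
  | tmul r a =>
    refine AddSubgroup.subset_closure ⟨r, a, ?_⟩
    rw [Algebra.TensorProduct.includeRight_apply, Algebra.TensorProduct.includeLeft_apply,
      Algebra.TensorProduct.tmul_mul_tmul, one_mul, mul_one]
  | add y z hy hz => exact add_mem hy hz

end Vale.Agent.P177.PI
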