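import Vale.Agent.P177.Flag.Det

/-!
# P177: simultaneous triangularization and the eigenflag over the absolute integral closure
-/

namespace Vale.Agent.P177.Flag

open Module

/-- A commuting family of endomorphisms (given as a ring homomorphism from a commutative ring) of a
nonzero finite dimensional vector space over an algebraically closed field has a common
eigenvector. -/
theorem exists_common_eigenvector {F V R : Type*} [Field F] [IsAlgClosed F] [AddCommGroup V]
    [Module F V] [FiniteDimensional F V] [Nontrivial V] [CommRing R] (ρ : R →+* Module.End F V) :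
    ∃ (v : V) (σ : R →+* F), v ≠ 0 ∧ ∀ r, ρ r v = σ r • v := by
  classical
  -- choose a nonzero invariant subspace of minimal dimension
  have hex : ∃ d : ℕ, ∃ W : Submodule F V, W ≠ ⊥ ∧ (∀ r, ∀ w ∈ W, ρ r w ∈ W) ∧
      finrank F W = d := ⟨_, ⊤, top_ne_bot, fun _ _ _ => Submodule.mem_top, rfl⟩
  obtain ⟨W, hW0, hWinv, hWd⟩ := Nat.find_spec hex
  have hmin : ∀ W' : Submodule F V, W' ≠ ⊥ → (∀ r, ∀ w ∈ W', ρ r w ∈ W') → W' ≤ W → W' = W := by
    intro W' h0 hinv hle
    refine Submodule.eq_of_le_of_finrank_le hle ?_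
    rw [hWd]
    exact Nat.find_min' hex ⟨W', h0, hinv, rfl⟩
  have hsc : ∀ r, ∃ c : F, ∀ w ∈ W, ρ r w = c • w := by
    intro r
    have : Nontrivial W := Submodule.nontrivial_iff_ne_bot.mpr hW0
    obtain ⟨c, hc⟩ := Module.End.exists_eigenvalue ((ρ r).restrict (hWinv r))
    obtain ⟨w, hw⟩ := hc.exists_hasEigenvector
    refine ⟨c, ?_⟩
    have key : W ⊓ LinearMap.ker (ρ r - algebraMap F (Module.End F V) c) = W := by
      refine hmin _ ?_ ?_ inf_le_left
      · rw [Submodule.ne_bot_iff]
        refine ⟨w, ⟨w.2, ?_⟩, fun h => hw.2 (Subtype.ext h)⟩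
        rw [SetLike.mem_coe, LinearMap.mem_ker, LinearMap.sub_apply, sub_eq_zero,
          Module.algebraMap_end_apply]
        have := hw.apply_eq_smul
        exact congrArg Subtype.val this
      · intro s x hx
        refine ⟨hWinv s x hx.1, ?_⟩
        have h1 := hx.2
        rw [SetLike.mem_coe, LinearMap.mem_ker, LinearMap.sub_apply, sub_eq_zero,
          Module.algebraMap_end_apply] at h1 ⊢
        rw [← Module.End.mul_apply, ← map_mul, mul_comm, map_mul, Module.End.mul_apply, h1,
          map_smul]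
    intro x hx
    rw [← key] at hx
    have h1 := hx.2
    rwa [SetLike.mem_coe, LinearMap.mem_ker, LinearMap.sub_apply, sub_eq_zero,
      Module.algebraMap_end_apply] at h1
  choose c hc using hsc
  obtain ⟨v, hv, hv0⟩ := (Submodule.ne_bot_iff W).mp hW0
  have hinj : ∀ a b : F, a • v = b • v → a = b := fun a b h => smul_left_injective F hv0 h
  refine ⟨v, { toFun := c, map_one' := ?_, map_mul' := ?_, map_zero' := ?_, map_add' := ?_ },
    hv0, fun r => hc r v hv⟩
  · refine hinj _ _ ?_
    rw [← hc _ v hv, map_one, one_smul, Module.End.one_apply]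
  · intro r s
    refine hinj _ _ ?_
    rw [← hc _ v hv, map_mul, Module.End.mul_apply, hc _ v hv, map_smul, hc _ v hv, smul_smul,
      mul_comm]
  · refine hinj _ _ ?_
    rw [← hc _ v hv, map_zero, zero_smul, LinearMap.zero_apply]
  · intro r s
    refine hinj _ _ ?_
    rw [← hc _ v hv, map_add, LinearMap.add_apply, hc _ v hv, hc _ v hv, add_smul]

/-- Simultaneous triangularization. -/
theorem exists_tri {F R : Type*} [Field F] [IsAlgClosed F] [CommRing R] (n : ℕ) :
    ∀ {V : Type*} [AddCommGroup V] [Module F V] [FiniteDimensional F V] (ρ : R →+* Module.End F V),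
    finrank F V = n → ∃ (b : Fin n → V) (σ : Fin n → R →+* F), LinearIndependent F b ∧ ∀ j r,
      ρ r (b j) - σ j r • b j ∈ Submodule.span F (b '' Set.Iio j) := by
  induction n with
  | zero =>
    intro V _ _ _ ρ hn
    refine ⟨fun j => j.elim0, fun j => j.elim0, linearIndependent_empty_type, fun j => j.elim0⟩
  | succ n ih =>
    intro V _ _ _ ρ hn
    have : Nontrivial V := Module.nontrivial_of_finrank_pos (R := F) (by omega)
    obtain ⟨v, σ, hv, hσ⟩ := exists_common_eigenvector ρ
    set W := Submodule.span F {v} with hW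
    have hWinv : ∀ r, W ≤ W.comap (ρ r) := by
      intro r
      rw [hW, Submodule.span_singleton_le_iff_mem, Submodule.mem_comap, hσ r]
      exact Submodule.smul_mem _ _ (Submodule.mem_span_singleton_self v)
    let ρ' : R →+* Module.End F (V ⧸ W) :=
      { toFun := fun r => W.mapQ W (ρ r) (hWinv r)
        map_one' := by
          ext x
          simp
        map_mul' := fun r s => by
          ext x
          simp
        map_zero' := by
          ext x
          simp
        map_add' := fun r s => by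
          ext x
          simp }
    have hρ' : ∀ r x, ρ' r (W.mkQ x) = W.mkQ (ρ r x) := fun r x => rfl
    have hq : finrank F (V ⧸ W) = n := by
      have h1 := Submodule.finrank_quotient_add_finrank W
      have h2 : finrank F W = 1 := finrank_span_singleton hv
      omega
    obtain ⟨b', σ', hli, hb'⟩ := ih ρ' hq
    have hsurj : Function.Surjective W.mkQ := W.mkQ_surjective
    choose w hw using fun i => hsurj (b' i)
    have hbw : b' = fun i => W.mkQ (w i) := funext fun i => (hw i).symm
    refine ⟨Fin.cons v w, Fin.cons σ σ', ?_, ?_⟩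
    · rw [Fintype.linearIndependent_iff] at hli ⊢
      intro g hg
      rw [Fin.sum_univ_succ] at hg
      simp only [Fin.cons_zero, Fin.cons_succ] at hg
      have h1 : ∀ i : Fin n, g i.succ = 0 := by
        refine hli (fun i => g i.succ) ?_
        have h2 := congrArg W.mkQ hg
        rw [map_add, map_smul, map_sum, map_zero] at h2
        have h3 : W.mkQ v = 0 := by
          rw [Submodule.mkQ_apply, Submodule.Quotient.mk_eq_zero]
          exact Submodule.mem_span_singleton_self v
        rw [h3, smul_zero, zero_add] at h2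
        rw [← h2]
        exact Finset.sum_congr rfl fun i _ => by rw [map_smul, hw]
      have h0 : g 0 = 0 := by
        rw [Finset.sum_eq_zero (fun i _ => by rw [h1 i, zero_smul]), add_zero] at hg
        exact (smul_eq_zero.mp hg).resolve_right hv
      intro i
      induction i using Fin.cases with
      | zero => exact h0
      | succ i => exact h1 i
    · intro j r
      induction j using Fin.cases with
      | zero =>
        simp only [Fin.cons_zero]
        rw [hσ, sub_self]
        exact Submodule.zero_mem _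
      | succ j =>
        simp only [Fin.cons_succ]
        have h1 := hb' j r
        rw [hbw] at h1
        have h2 : W.mkQ (ρ r (w j) - σ' j r • w j)
            ∈ (Submodule.span F (w '' Set.Iio j)).map W.mkQ := by
          rw [Submodule.map_span, ← Set.image_comp]
          rw [map_sub, map_smul, ← hρ']
          exact h1
        obtain ⟨x, hx, hxe⟩ := h2
        have h3 : ρ r (w j) - σ' j r • w j - x ∈ W := by
          rw [← Submodule.Quotient.mk_eq_zero, ← Submodule.mkQ_apply, map_sub, hxe, sub_self]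
        have h4 : W ≤ Submodule.span F ((Fin.cons v w : Fin (n + 1) → V) '' Set.Iio j.succ) := by
          rw [hW, Submodule.span_singleton_le_iff_mem]
          exact Submodule.subset_span ⟨0, Fin.succ_pos j, rfl⟩
        have h5 : Submodule.span F (w '' Set.Iio j)
            ≤ Submodule.span F ((Fin.cons v w : Fin (n + 1) → V) '' Set.Iio j.succ) := by
          refine Submodule.span_mono ?_
          rintro _ ⟨i, hi, rfl⟩
          exact ⟨i.succ, Fin.succ_lt_succ_iff.mpr hi, by simp⟩
        have := Submodule.add_mem _ (h4 h3) (h5 hx)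
        rwa [sub_add_cancel] at this

section General

variable {P Q : Type*} [CommRing P] [CommRing Q] {n : ℕ}

theorem detT_eq_zero_of_lt (v : ℕ → Fin n → P) {j : ℕ} (hj : n < j) (t : Fin j → Fin n) :
    detT v j t = 0 := by
  obtain ⟨p, q, hpq, h⟩ := Fintype.exists_ne_map_eq_of_card_lt t (by simpa using hj)
  rw [detT]
  refine Matrix.det_zero_of_column_eq hpq fun a => ?_
  simp [h]

theorem wdg_detT_of_le (v : ℕ → Fin n → P) {j : ℕ} (hj : n ≤ j) (w : Fin n → P)
    (t : Fin (j + 1) → Fin n) : wdg (detT v j) w t = 0 := by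
  rw [wdg_detT, detT_eq_zero_of_lt _ (by omega), mul_zero]

/-- If the top coordinate is nonzero then all Plücker tensors are nonzero. -/
theorem exists_detT_ne_zero (v : ℕ → Fin n → P) {N : ℕ} (h : ∃ t, detT v N t ≠ 0) :
    ∀ j ≤ N, ∃ t, detT v j t ≠ 0 := by
  induction N with
  | zero =>
    intro j hj
    obtain rfl : j = 0 := by omega
    exact h
  | succ N ih =>
    intro j hj
    rcases Nat.lt_or_ge N j with h1 | h1
    · obtain rfl : j = N + 1 := by omega
      exact h
    · refine ih ?_ j h1
      by_contra hcon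
      push Not at hcon
      obtain ⟨t, ht⟩ := h
      have h2 := wdg_detT_self v N t
      rw [wdg, Finset.sum_eq_zero] at h2
      · have h3 : (-1 : P) ^ N * ((-1) ^ N * detT v (N + 1) t) = 0 := by rw [← h2, mul_zero]
        rw [← mul_assoc, ← mul_pow, neg_one_mul, neg_neg, one_pow, one_mul] at h3
        exact ht h3
      · intro k _
        rw [hcon]
        simp

/-- The eigen relations descend along injective ring homomorphisms. -/
theorem EigRel.of_map (f : P →+* Q) (hf : Function.Injective f)
    {T : ∀ j : ℕ, (Fin j → Fin n) → P} {X : Matrix (Fin n) (Fin n) P} {c : ℕ → P}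
    (h : EigRel (fun j t => f (T j t)) (X.map f) (fun j => f (c j))) : EigRel T X c := by
  intro j ρ t
  have := h j ρ t
  apply hf
  rw [map_wdg, map_zero, ← this]
  congr 1
  funext i
  simp [Matrix.map_apply]

end General

section Main

variable {Λ R Ω L : Type*} [CommRing Λ] [CommRing R] [Algebra Λ R] [Field Ω] [Algebra Λ Ω]
  [AddCommGroup L] [Module R L] [Module Λ L] [IsScalarTower Λ R L] {n : ℕ}

/-- The matrices of the `R`-action on a free `Λ`-module. -/
noncomputable def actMat (b : Basis (Fin n) Λ L) : R →ₐ[Λ] Matrix (Fin n) (Fin n) Λ :=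
  (LinearMap.toMatrixAlgEquiv b).toAlgHom.comp (Algebra.lsmul Λ Λ L)

theorem actMat_apply (b : Basis (Fin n) Λ L) (r : R) (i j : Fin n) :
    actMat b r i j = b.repr (r • b j) i := by
  simp [actMat, LinearMap.toMatrixAlgEquiv_apply]

variable (Ω) in
/-- The action of `R` on `Ω^n`. -/
noncomputable def actEnd (b : Basis (Fin n) Λ L) : R →+* Module.End Ω (Fin n → Ω) :=
  ((Matrix.toLinAlgEquiv' (R := Ω) (n := Fin n)).toAlgHom.toRingHom.comp
    (algebraMap Λ Ω).mapMatrix).comp (actMat (R := R) b).toRingHom

theorem actEnd_apply (b : Basis (Fin n) Λ L) (r : R) (v : Fin n → Ω) (i : Fin n) :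
    actEnd Ω b r v i = ∑ l, algebraMap Λ Ω (actMat b r i l) * v l := by
  simp [actEnd, Matrix.toLinAlgEquiv'_apply, Matrix.mulVec, dotProduct]

theorem actEnd_algebraMap (b : Basis (Fin n) Λ L) (a : Λ) (v : Fin n → Ω) :
    actEnd Ω b (algebraMap Λ R a) v = algebraMap Λ Ω a • v := by
  funext i
  rw [actEnd_apply]
  simp only [AlgHom.commutes, Matrix.algebraMap_matrix_apply, Algebra.algebraMap_self,
    RingHom.id_apply, Pi.smul_apply, smul_eq_mul]
  rw [Finset.sum_eq_single i]
  · simp
  · intro l _ hl
    simp [Ne.symm hl]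
  · simp

theorem actEnd_eq_zero (b : Basis (Fin n) Λ L) {r : R} (h : actMat b r = 0) :
    actEnd Ω b r = 0 := by
  ext v i
  simp [actEnd_apply, h]

theorem trace_actEnd (b : Basis (Fin n) Λ L) (r : R) :
    LinearMap.trace Ω (Fin n → Ω) (actEnd Ω b r)
      = algebraMap Λ Ω (LinearMap.trace Λ L (Algebra.lsmul Λ Λ L r)) := by
  rw [LinearMap.trace_eq_matrix_trace Λ b, AddMonoidHom.map_trace,
    LinearMap.trace_eq_matrix_trace Ω (Pi.basisFun Ω (Fin n))]
  congr 1
  ext i j
  rw [LinearMap.toMatrix_apply, Pi.basisFun_repr, actEnd_apply, Matrix.map_apply,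
    LinearMap.toMatrix_apply, Finset.sum_eq_single j]
  · simp [actMat_apply]
  · intro l _ hl
    simp [hl]
  · simp

theorem eq_zero_of_smul_mem_span {V : Type*} [AddCommGroup V] [Module Ω V] {b : Fin n → V}
    (hli : LinearIndependent Ω b) {j : Fin n} {c : Ω}
    (h : c • b j ∈ Submodule.span Ω (b '' Set.Iio j)) : c = 0 := by
  by_contra hc
  refine hli.notMem_span_image (s := Set.Iio j) (x := j) (by simp) ?_
  have := Submodule.smul_mem _ c⁻¹ h
  rwa [smul_smul, inv_mul_cancel₀ hc, one_smul] at this

/-- A flag of eigenvectors for the action of `R` on `Λ^n`, over `Ω`. -/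
structure EigFlag (b : Basis (Fin n) Λ L) (v : ℕ → Fin n → Ω) (σ : Fin n → R →ₐ[Λ] Ω) : Prop where
  integral : ∀ j i, IsIntegral Λ (v j i)
  zero : ∀ j, n ≤ j → v j = 0
  li : LinearIndependent Ω (fun j : Fin n => v j)
  eig : ∀ (j : Fin n) (r : R), actEnd Ω b r (v j) - σ j r • v j
    ∈ Submodule.span Ω (v '' Set.Iio (j : ℕ))

/-- Existence of the eigenflag. -/
theorem exists_eigFlag [IsDomain Λ] [IsAlgClosed Ω] [FaithfulSMul Λ Ω]
    [Algebra.IsAlgebraic Λ Ω] (b : Basis (Fin n) Λ L) :
    ∃ (v : ℕ → Fin n → Ω) (σ : Fin n → R →ₐ[Λ] Ω), EigFlag b v σ := by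
  classical
  obtain ⟨b', σ', hli, hb'⟩ := exists_tri n (actEnd (R := R) Ω b) (by simp)
  obtain ⟨y, hy, hint⟩ := Algebra.IsAlgebraic.exists_integral_multiples Λ
    (Finset.univ.image fun q : Fin n × Fin n => b' q.1 q.2)
  have hy' : algebraMap Λ Ω y ≠ 0 := by
    rwa [Ne, FaithfulSMul.algebraMap_eq_zero_iff]
  set v : ℕ → Fin n → Ω := fun j => if h : j < n then y • b' ⟨j, h⟩ else 0 with hv
  have hvj : ∀ j : Fin n, v j = algebraMap Λ Ω y • b' j := fun j => by
    rw [hv, algebraMap_smul]; simp [j.2]
  have hspan : ∀ j : Fin n, Submodule.span Ω (b' '' Set.Iio j)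
      ≤ Submodule.span Ω (v '' Set.Iio (j : ℕ)) := by
    intro j
    rw [Submodule.span_le]
    rintro _ ⟨i, hi, rfl⟩
    have h1 : b' i = (algebraMap Λ Ω y)⁻¹ • v i := by
      rw [hvj, smul_smul, inv_mul_cancel₀ hy', one_smul]
    rw [SetLike.mem_coe, h1]
    exact Submodule.smul_mem _ _ (Submodule.subset_span ⟨i, Fin.lt_def.mp hi, rfl⟩)
  refine ⟨v, fun j => { (σ' j) with commutes' := ?_ }, ?_, ?_, ?_, ?_⟩
  · intro a
    have h := hb' j (algebraMap Λ R a)
    rw [actEnd_algebraMap, ← sub_smul] at h
    exact (sub_eq_zero.mp (eq_zero_of_smul_mem_span hli h)).symm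
  · intro j i
    by_cases h : j < n
    · have h1 : v j i = y • b' ⟨j, h⟩ i := by rw [hv]; simp [h]
      rw [h1]
      exact hint _ (Finset.mem_image.mpr ⟨(⟨j, h⟩, i), Finset.mem_univ _, rfl⟩)
    · have h1 : v j i = 0 := by rw [hv]; simp [h]
      rw [h1]
      exact isIntegral_zero
  · intro j hj
    rw [hv]
    simp [Nat.not_lt.mpr hj]
  · have h1 : (fun j : Fin n => v j) = fun j => (Units.mk0 _ hy') • b' j := by
      funext j
      rw [hvj]
      rfl
    rw [h1]
    exact hli.units_smul (fun _ => Units.mk0 _ hy')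
  · intro j r
    rw [hvj, map_smul, smul_comm, ← smul_sub]
    exact Submodule.smul_mem _ _ (hspan j (hb' j r))

namespace EigFlag

variable {b : Basis (Fin n) Λ L} {v : ℕ → Fin n → Ω} {σ : Fin n → R →ₐ[Λ] Ω}

theorem eig' (h : EigFlag b v σ) (j : Fin n) (r : R) :
    actEnd Ω b r (v j) - σ j r • v j
      ∈ Submodule.span Ω ((fun j : Fin n => v j) '' Set.Iio j) := by
  have h1 := h.eig j r
  have h2 : v '' Set.Iio (j : ℕ) = (fun j : Fin n => v j) '' Set.Iio j := by
    ext x
    constructor
    · rintro ⟨i, hi, rfl⟩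
      exact ⟨⟨i, lt_trans hi j.2⟩, Fin.lt_def.mpr hi, rfl⟩
    · rintro ⟨i, hi, rfl⟩
      exact ⟨i, Fin.lt_def.mp hi, rfl⟩
  rwa [h2] at h1

/-- If `r` acts as zero on `L` then `σ j r = 0`. -/
theorem eq_zero_of_act (h : EigFlag b v σ) (j : Fin n) {r : R} (hr : actMat b r = 0) :
    σ j r = 0 := by
  have h1 := h.eig' j r
  rw [actEnd_eq_zero b hr, LinearMap.zero_apply, zero_sub, ← neg_smul] at h1
  exact neg_eq_zero.mp (eq_zero_of_smul_mem_span h.li h1)

theorem eq_zero_of_smul (h : EigFlag b v σ) (j : Fin n) {r : R} (hr : ∀ x : L, r • x = 0) :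
    σ j r = 0 := by
  refine h.eq_zero_of_act j ?_
  ext i l
  rw [actMat_apply, hr]
  simp

theorem integral_char (h : EigFlag b v σ) (j : Fin n) (r : R) : IsIntegral Λ (σ j r) := by
  refine ⟨(actMat b r).charpoly, Matrix.charpoly_monic _, ?_⟩
  have h1 : actMat b (Polynomial.aeval r (actMat b r).charpoly) = 0 := by
    rw [← Polynomial.aeval_algHom_apply, Matrix.aeval_self_charpoly]
  have h2 := h.eq_zero_of_act j h1
  rwa [← Polynomial.aeval_algHom_apply] at h2

theorem trace_eq (h : EigFlag b v σ) (r : R) :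
    algebraMap Λ Ω (LinearMap.trace Λ L (Algebra.lsmul Λ Λ L r)) = ∑ j, σ j r := by
  rw [← trace_actEnd (Ω := Ω) b r]
  rcases Nat.eq_zero_or_pos n with rfl | hn
  · rw [LinearMap.trace_eq_matrix_trace Ω (Pi.basisFun Ω (Fin 0))]
    simp
  have : Nonempty (Fin n) := ⟨⟨0, hn⟩⟩
  set B := basisOfLinearIndependentOfCardEqFinrank h.li (by simp) with hB
  have hBj : ∀ j : Fin n, B j = v j := fun j => by
    rw [hB, coe_basisOfLinearIndependentOfCardEqFinrank]
  have hBf : (⇑B : Fin n → _) = fun j : Fin n => v j := funext hBj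
  rw [LinearMap.trace_eq_matrix_trace Ω B, Matrix.trace]
  refine Finset.sum_congr rfl fun j _ => ?_
  rw [Matrix.diag_apply, LinearMap.toMatrix_apply]
  have h1 := h.eig' j r
  rw [← hBf, Basis.mem_span_image] at h1
  have h2 : B.repr (actEnd Ω b r (v j) - σ j r • v j) j = 0 := by
    by_contra hne
    have := h1 (Finsupp.mem_support_iff.mpr hne)
    simp at this
  rw [map_sub, map_smul, ← hBj, Basis.repr_self] at h2
  simpa [sub_eq_zero] using h2

theorem detT_ne_zero (h : EigFlag b v σ) : detT v n id ≠ 0 := by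
  have h1 : LinearIndependent Ω (Matrix.of fun a b : Fin n => v a b).row := h.li
  have h2 := Matrix.linearIndependent_rows_iff_isUnit.mp h1
  rw [Matrix.isUnit_iff_isUnit_det] at h2
  exact h2.ne_zero

theorem exists_detT_ne_zero (h : EigFlag b v σ) (j : ℕ) (hj : j ≤ n) : ∃ t, detT v j t ≠ 0 :=
  Flag.exists_detT_ne_zero v ⟨id, h.detT_ne_zero⟩ j hj

theorem eigRel (h : EigFlag b v σ) (r : R) :
    EigRel (detT v) ((actMat b r).map (algebraMap Λ Ω))
      (fun j => if hj : j < n then σ ⟨j, hj⟩ r else 0) := by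
  refine eigRel_detT v _ _ fun j a haj t => ?_
  by_cases hj : j < n
  · have haj' : a < n := by omega
    have h1 := h.eig ⟨a, haj'⟩ r
    simp only at h1
    refine wdg_detT_of_mem_span v j ?_ t
    have h2 : (fun i => (∑ l, ((actMat b r).map (algebraMap Λ Ω)) i l * v a l)
        - (if hj : j < n then σ ⟨j, hj⟩ r else 0) * v a i)
        = (actEnd Ω b r (v a) - σ ⟨a, haj'⟩ r • v a)
          + (σ ⟨a, haj'⟩ r - σ ⟨j, hj⟩ r) • v a := by
      funext i
      rw [Pi.add_apply, Pi.sub_apply, actEnd_apply]
      simp only [Matrix.map_apply, hj, dif_pos, Pi.smul_apply, smul_eq_mul]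
      ring
    rw [h2]
    refine Submodule.add_mem _ (Submodule.span_mono (Set.image_mono ?_) h1) ?_
    · exact Set.Iio_subset_Iio haj
    · rcases Nat.lt_or_ge a j with h3 | h3
      · exact Submodule.smul_mem _ _ (Submodule.subset_span ⟨a, h3, rfl⟩)
      · obtain rfl : a = j := by omega
        rw [sub_self, zero_smul]
        exact Submodule.zero_mem _
  · exact wdg_detT_of_le v (by omega) _ t

/-- The eigenvectors and the eigenvalues lie in every subalgebra containing a certain finite set of
integral elements. -/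
theorem exists_finset (h : EigFlag b v σ) (I : Ideal R) [Module.Finite Λ (R ⧸ I)]
    (hI : ∀ r ∈ I, ∀ x : L, r • x = 0) :
    ∃ S : Finset Ω, (∀ x ∈ S, IsIntegral Λ x) ∧ ∀ B : Subalgebra Λ Ω, (S : Set Ω) ⊆ B →
      (∀ j i, v j i ∈ B) ∧ (∀ j r, σ j r ∈ B) := by
  classical
  obtain ⟨G, hG⟩ := (Module.finite_def (R := Λ) (M := R ⧸ I)).mp inferInstance
  have hsurj : Function.Surjective (Ideal.Quotient.mk I) := Ideal.Quotient.mk_surjective
  choose g hg using fun x : R ⧸ I => hsurj x
  refine ⟨(Finset.univ.image fun q : Fin n × Fin n => v q.1 q.2) ∪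
    (Finset.univ ×ˢ G).image (fun q : Fin n × (R ⧸ I) => σ q.1 (g q.2)), ?_, ?_⟩
  · intro x hx
    rw [Finset.mem_union, Finset.mem_image, Finset.mem_image] at hx
    rcases hx with ⟨q, _, rfl⟩ | ⟨q, _, rfl⟩
    · exact h.integral _ _
    · exact h.integral_char _ _
  · intro B hB
    constructor
    · intro j i
      by_cases hj : j < n
      · refine hB (Finset.mem_coe.mpr (Finset.mem_union_left _ ?_))
        exact Finset.mem_image.mpr ⟨(⟨j, hj⟩, i), Finset.mem_univ _, rfl⟩
      · rw [h.zero j (by omega)]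
        exact B.zero_mem
    · intro j r
      have hr : (Ideal.Quotient.mk I r) ∈ Submodule.span Λ (G : Set (R ⧸ I)) := by
        rw [hG]
        exact Submodule.mem_top
      have key : ∀ y ∈ Submodule.span Λ (G : Set (R ⧸ I)), ∀ r : R, Ideal.Quotient.mk I r = y →
          σ j r ∈ B := by
        intro y hy
        induction hy using Submodule.span_induction with
        | mem x hx =>
          intro r hr
          have h1 : σ j (r - g x) = 0 := by
            refine h.eq_zero_of_smul j (hI _ ?_)
            rw [← Ideal.Quotient.eq_zero_iff_mem, map_sub, hr, hg, sub_self]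
          rw [map_sub, sub_eq_zero] at h1
          rw [h1]
          refine hB (Finset.mem_coe.mpr (Finset.mem_union_right _ ?_))
          exact Finset.mem_image.mpr
            ⟨(j, x), Finset.mem_product.mpr ⟨Finset.mem_univ _, hx⟩, rfl⟩
        | zero =>
          intro r hr
          rw [h.eq_zero_of_smul j (hI _ (Ideal.Quotient.eq_zero_iff_mem.mp hr))]
          exact B.zero_mem
        | add x y _ _ hx hy =>
          intro r hr
          have h1 := hx (g x) (hg x)
          have h2 := hy (r - g x) (by rw [map_sub, hr, hg]; abel)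
          have h3 := B.add_mem h1 h2
          rwa [← map_add, add_sub_cancel] at h3
        | smul a x _ hx =>
          intro r hr
          have h1 := hx (g x) (hg x)
          have h2 : σ j (r - algebraMap Λ R a * g x) = 0 := by
            refine h.eq_zero_of_smul j (hI _ ?_)
            rw [← Ideal.Quotient.eq_zero_iff_mem, map_sub, map_mul, hr, hg, Algebra.smul_def,
              sub_eq_zero]
            rfl
          rw [map_sub, sub_eq_zero, map_mul, AlgHom.commutes] at h2
          rw [h2]
          exact B.mul_mem (B.algebraMap_mem a) h1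
      exact key _ hr r rfl

/-- The eigenvectors inside a subalgebra. -/
def vec (B : Subalgebra Λ Ω) (hv : ∀ j i, v j i ∈ B) : ℕ → Fin n → B := fun j i => ⟨v j i, hv j i⟩

/-- The eigencharacters inside a subalgebra. -/
def char (B : Subalgebra Λ Ω) (hσ : ∀ j r, σ j r ∈ B) : Fin n → R →ₐ[Λ] B :=
  fun j => (σ j).codRestrict B (hσ j)

theorem coe_detT_vec (B : Subalgebra Λ Ω) (hv : ∀ j i, v j i ∈ B) (j : ℕ) (t : Fin j → Fin n) :
    ((detT (vec B hv) j t : B) : Ω) = detT v j t :=
  map_detT B.val.toRingHom (vec B hv) j t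

theorem eigRel_sub (h : EigFlag b v σ) (B : Subalgebra Λ Ω) (hv : ∀ j i, v j i ∈ B)
    (hσ : ∀ j r, σ j r ∈ B) (r : R) :
    EigRel (detT (vec B hv)) ((actMat b r).map (algebraMap Λ B))
      (fun j => if hj : j < n then char B hσ ⟨j, hj⟩ r else 0) := by
  refine EigRel.of_map B.val.toRingHom Subtype.val_injective ?_
  have h1 := h.eigRel r
  have e1 : (fun (j : ℕ) (t : Fin j → Fin n) => B.val.toRingHom (detT (vec B hv) j t)) = detT v := by
    funext j t
    exact coe_detT_vec B hv j t
  have e2 : ((actMat b r).map (algebraMap Λ B)).map B.val.toRingHom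
      = (actMat b r).map (algebraMap Λ Ω) := by
    rw [Matrix.map_map]
    rfl
  have e3 : (fun j => B.val.toRingHom (if hj : j < n then char B hσ ⟨j, hj⟩ r else 0))
      = fun j => if hj : j < n then σ ⟨j, hj⟩ r else 0 := by
    funext j
    split_ifs
    · rfl
    · simp
  rw [e1, e2, e3]
  exact h1

theorem detT_vec_ne_zero (h : EigFlag b v σ) (B : Subalgebra Λ Ω) (hv : ∀ j i, v j i ∈ B) :
    detT (vec B hv) n id ≠ 0 := by
  intro h0
  have h1 := coe_detT_vec B hv n id
  rw [h0] at h1
  exact h.detT_ne_zero h1.symm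

theorem exists_detT_vec_ne_zero (h : EigFlag b v σ) (B : Subalgebra Λ Ω) (hv : ∀ j i, v j i ∈ B)
    (j : ℕ) (hj : j ≤ n) : ∃ t, detT (vec B hv) j t ≠ 0 :=
  Flag.exists_detT_ne_zero (vec B hv) ⟨id, h.detT_vec_ne_zero B hv⟩ j hj

end EigFlag

end Main

end Vale.Agent.P177.Flag
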