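import Vale.Agent.P177.Flag.Core

/-!
# P177: Pluecker relations for determinants

For vectors `v 0, v 1, ..` over a commutative ring the determinants `detT v j t` (rows
`v 0, .., v (j-1)`, columns `t`) satisfy `FlagRel`, and `EigRel` if the flag is an eigenflag.
-/

namespace Vale.Agent.P177.Flag

open Finset

variable {P E : Type*} [CommRing P] [AddCommGroup E] [Module P E] {n : ℕ}

/-- The Pluecker coordinates of `v 0 ∧ .. ∧ v (j-1)`. -/
def detT (v : ℕ → Fin n → P) (j : ℕ) (t : Fin j → Fin n) : P :=
  Matrix.det (Matrix.of fun a b : Fin j => v a (t b))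

theorem wdg_detT (v : ℕ → Fin n → P) (j : ℕ) (w : Fin n → P) (t : Fin (j + 1) → Fin n) :
    wdg (detT v j) w t = (-1) ^ j * detT (Function.update v j w) (j + 1) t := by
  have h : detT (Function.update v j w) (j + 1) t
      = ∑ k : Fin (j + 1), (-1) ^ (j + (k : ℕ)) * w (t k) *
        detT v j (fun i => t (k.succAbove i)) := by
    rw [detT, Matrix.det_succ_row _ (Fin.last j)]
    refine Finset.sum_congr rfl fun k _ => ?_
    simp only [Matrix.of_apply, Fin.val_last, Function.update_self]
    congr 1
    rw [detT]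
    congr 1
    ext a b
    simp only [Matrix.submatrix_apply, Matrix.of_apply, Fin.succAbove_last, Fin.val_castSucc]
    rw [Function.update_of_ne (ne_of_lt a.2)]
  rw [h, wdg, Finset.mul_sum]
  refine Finset.sum_congr rfl fun k _ => ?_
  rw [pow_add, smul_eq_mul]
  have : ((-1 : P) ^ j) * (-1) ^ j = 1 := by rw [← mul_pow]; simp
  linear_combination (-((-1 : P) ^ (k : ℕ) * detT v j (fun i => t (k.succAbove i)) * w (t k))) * this

theorem wdg_detT_row (v : ℕ → Fin n → P) (j a : ℕ) (ha : a < j) (t : Fin (j + 1) → Fin n) :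
    wdg (detT v j) (v a) t = 0 := by
  rw [wdg_detT]
  have : detT (Function.update v j (v a)) (j + 1) t = 0 := by
    rw [detT]
    refine Matrix.det_zero_of_row_eq (i := ⟨a, by omega⟩) (j := Fin.last j) ?_ ?_
    · intro h
      have := congrArg Fin.val h
      simp at this
      omega
    · funext b
      simp only [Matrix.of_apply, Fin.val_last, Function.update_self]
      rw [Function.update_of_ne (ne_of_lt ha)]
  rw [this, mul_zero]

theorem wdg_detT_self (v : ℕ → Fin n → P) (j : ℕ) (t : Fin (j + 1) → Fin n) :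
    wdg (detT v j) (v j) t = (-1) ^ j * detT v (j + 1) t := by
  rw [wdg_detT, Function.update_eq_self]

/-- Expansion of `detT` along the first column. -/
theorem detT_cons (v : ℕ → Fin n → P) (j : ℕ) (i : Fin n) (ρ : Fin j → Fin n) :
    detT v (j + 1) (Fin.cons i ρ) = ∑ a : Fin (j + 1), ((-1) ^ (a : ℕ) *
      Matrix.det (Matrix.of fun x y : Fin j => v (a.succAbove x) (ρ y))) * v a i := by
  rw [detT, Matrix.det_succ_column_zero]
  refine Finset.sum_congr rfl fun a _ => ?_
  simp only [Matrix.of_apply, Fin.cons_zero]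
  have : (Matrix.of fun a b : Fin (j + 1) => v a ((Fin.cons i ρ : Fin (j + 1) → Fin n) b)).submatrix
      a.succAbove Fin.succ = Matrix.of fun x y : Fin j => v (a.succAbove x) (ρ y) := by
    ext x y
    simp
  rw [this]
  ring

/-- The contraction of `detT v (j+1)` as a combination of the vectors `v a`. -/
theorem detT_cons_fun (v : ℕ → Fin n → P) (j : ℕ) (ρ : Fin j → Fin n) :
    (fun i => detT v (j + 1) (Fin.cons i ρ)) = ∑ a : Fin (j + 1), ((-1) ^ (a : ℕ) *
      Matrix.det (Matrix.of fun x y : Fin j => v (a.succAbove x) (ρ y))) • v a := by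
  funext i
  rw [detT_cons, Finset.sum_apply]
  rfl

theorem flagRel_detT (v : ℕ → Fin n → P) : FlagRel (detT v) where
  zero t := by simp [detT]
  same j ρ t := by
    rw [detT_cons_fun, wdg_sum]
    refine Finset.sum_eq_zero fun a _ => ?_
    rw [wdg_smul, wdg_detT_row _ _ _ a.2, smul_zero]
  incl j ρ t := by
    rw [detT_cons_fun, wdg_sum]
    refine Finset.sum_eq_zero fun a _ => ?_
    rw [wdg_smul, wdg_detT_row _ _ _ (by have := a.2; omega), smul_zero]
  step j ρ t := by
    rw [detT_cons_fun, wdg_sum, Fin.sum_univ_castSucc]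
    rw [Finset.sum_eq_zero, zero_add]
    · rw [wdg_smul, Fin.val_last, wdg_detT_self]
      have h1 : Matrix.det (Matrix.of fun x y : Fin j => v ((Fin.last j).succAbove x) (ρ y))
          = detT v j ρ := by
        rw [detT]
        congr 1
        ext x y
        simp
      rw [h1, smul_eq_mul]
      have : ((-1 : P) ^ j) * (-1) ^ j = 1 := by rw [← mul_pow]; simp
      linear_combination (detT v j ρ * detT v (j + 1) t) * this
    · intro a _
      rw [wdg_smul, Fin.val_castSucc, wdg_detT_row _ _ _ a.2, smul_zero]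

/-- If `(X - c j) (v a)` wedges to zero with `v 0 ∧ .. ∧ v (j-1)` for `a ≤ j` then `EigRel`. -/
theorem eigRel_detT (v : ℕ → Fin n → P) (X : Matrix (Fin n) (Fin n) P) (c : ℕ → P)
    (h : ∀ j a, a ≤ j → ∀ t, wdg (detT v j) (fun i => (∑ l, X i l * v a l) - c j * v a i) t = 0) :
    EigRel (detT v) X c := by
  intro j ρ t
  have h1 : (fun i => (∑ l, X i l * detT v (j + 1) (Fin.cons l ρ))
      - c j * detT v (j + 1) (Fin.cons i ρ)) = ∑ a : Fin (j + 1), ((-1) ^ (a : ℕ) *
      Matrix.det (Matrix.of fun x y : Fin j => v (a.succAbove x) (ρ y))) •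
        (fun i => (∑ l, X i l * v a l) - c j * v a i) := by
    funext i
    simp only [detT_cons, Finset.sum_apply, Pi.smul_apply, smul_eq_mul, mul_sub,
      Finset.sum_sub_distrib, Finset.mul_sum]
    congr 1
    · rw [Finset.sum_comm]
      refine Finset.sum_congr rfl fun a _ => Finset.sum_congr rfl fun l _ => ?_
      ring
    · refine Finset.sum_congr rfl fun a _ => ?_
      ring
  rw [h1, wdg_sum]
  refine Finset.sum_eq_zero fun a _ => ?_
  rw [wdg_smul, h j a (by have := a.2; omega), smul_zero]

/-- The vectors in the span of `v 0, .., v (j-1)` wedge to zero. -/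
theorem wdg_detT_of_mem_span (v : ℕ → Fin n → P) (j : ℕ) {w : Fin n → P}
    (hw : w ∈ Submodule.span P (v '' Set.Iio j)) (t : Fin (j + 1) → Fin n) :
    wdg (detT v j) w t = 0 := by
  induction hw using Submodule.span_induction with
  | mem x hx =>
      obtain ⟨a, ha, rfl⟩ := hx
      exact wdg_detT_row v j a ha t
  | zero => exact wdg_zero _ _
  | add x y _ _ hx hy => rw [wdg_add, hx, hy, add_zero]
  | smul r x _ hx => rw [wdg_smul, hx, smul_zero]

/-- Wedge with the top coordinate vector is zero. -/
theorem wdg_detT_top (v : ℕ → Fin n → P) (w : Fin n → E) (t : Fin (n + 1) → Fin n) :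
    wdg (detT v n) w t = 0 := by
  have h0 : ∀ w : Fin n → P, wdg (detT v n) w t = 0 := by
    intro w
    obtain ⟨p, q, hpq, h⟩ := Fintype.exists_ne_map_eq_of_card_lt t (by simp)
    rw [wdg_detT]
    have : detT (Function.update v n w) (n + 1) t = 0 := by
      rw [detT]
      refine Matrix.det_zero_of_column_eq hpq fun a => ?_
      simp [h]
    rw [this, mul_zero]
  have h1 : w = ∑ i, fun l => (Pi.single i (1 : P) : Fin n → P) l • w i := by
    funext l
    rw [Finset.sum_apply, Finset.sum_eq_single l]
    · simp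
    · intro b _ hb
      simp [Ne.symm hb]
    · simp
  rw [h1, wdg_sum]
  refine Finset.sum_eq_zero fun i _ => ?_
  rw [wdg_smul_const, h0, zero_smul]

/-- Compatibility with ring maps. -/
theorem map_wdg {Q : Type*} [CommRing Q] (f : P →+* Q) {j : ℕ} (T : (Fin j → Fin n) → P)
    (w : Fin n → P) (t : Fin (j + 1) → Fin n) :
    f (wdg T w t) = wdg (fun t => f (T t)) (fun i => f (w i)) t := by
  simp [wdg, map_sum]

theorem map_detT {Q : Type*} [CommRing Q] (f : P →+* Q) (v : ℕ → Fin n → P) (j : ℕ)
    (t : Fin j → Fin n) : f (detT v j t) = detT (fun a i => f (v a i)) j t := by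
  rw [detT, detT, RingHom.map_det]
  rfl

theorem FlagRel.map {Q : Type*} [CommRing Q] (f : P →+* Q) {T : ∀ j : ℕ, (Fin j → Fin n) → P}
    (hT : FlagRel T) : FlagRel (fun j t => f (T j t)) where
  zero t := by simp [hT.zero]
  same j ρ t := by
    have := congrArg f (hT.same j ρ t)
    rwa [map_wdg, map_zero] at this
  incl j ρ t := by
    have := congrArg f (hT.incl j ρ t)
    rwa [map_wdg, map_zero] at this
  step j ρ t := by
    have := congrArg f (hT.step j ρ t)
    rwa [map_wdg, map_mul] at this

theorem EigRel.map {Q : Type*} [CommRing Q] (f : P →+* Q) {T : ∀ j : ℕ, (Fin j → Fin n) → P}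
    {X : Matrix (Fin n) (Fin n) P} {c : ℕ → P} (hX : EigRel T X c) :
    EigRel (fun j t => f (T j t)) (X.map f) (fun j => f (c j)) := by
  intro j ρ t
  have := congrArg f (hX j ρ t)
  rw [map_wdg, map_zero] at this
  simpa [Matrix.map_apply] using this

end Vale.Agent.P177.Flag
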