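import Vale.Agent.P177.PI.Pack
import Vale.Agent.P177.Flag.EtaW

/-!
P177: the eigenflag data with relations up to `η` over a product ring, from the levels.
-/

namespace Vale.Agent.P177.PI

open Vale.Agent.P177.Flag

universe u v w

variable {ι : Type v} {W : Type u} [CommRing W] {V : ι → Type w} [∀ e, CommRing (V e)]
  {G : Type*} [AddCommGroup G] {n : ℕ}
  {π : ∀ e, W →+* V e} {F : ∀ e, RFam (V e) G}
  {τ : ∀ j : ℕ, (Fin j → Fin n) → W} {d : ℕ → G} {good : G → Prop} {η : W}

/-- `FDataE` over the product from the levels. -/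
theorem fDataE_pull [Nonempty ι] (hinj : ∀ x y : W, (∀ e, π e x = π e y) → x = y)
    (h : ∀ e, FDataE (F e) (fun j t => π e (τ j t)) d good (π e η)) :
    FDataE (RFam.pull π F) τ d good η where
  d_zero := by
    obtain ⟨e⟩ := (inferInstance : Nonempty ι)
    exact (h e).d_zero
  mem j t := (RFam.mem_pull_M).2 fun e => (h e).mem j t
  zero t := hinj _ _ fun e => by rw [(h e).zero t, map_one]
  same j ρ t := (RFam.mem_pull_N).2 fun e => by
    rw [map_mul, map_wdg]
    exact (h e).same j ρ t
  incl j ρ t := (RFam.mem_pull_N).2 fun e => by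
    rw [map_mul, map_wdg]
    exact (h e).incl j ρ t
  step j ρ t := (RFam.mem_pull_N).2 fun e => by
    rw [map_mul, map_sub, map_mul, map_wdg]
    exact (h e).step j ρ t
  top i t := (RFam.mem_pull_N).2 fun e => by
    have h1 := (h e).top i t
    have h2 : (fun l => π e ((Pi.single i (1 : W) : Fin n → W) l)) =
        (Pi.single i (1 : V e) : Fin n → V e) := by
      funext l
      by_cases hl : l = i
      · subst hl
        rw [Pi.single_eq_same, Pi.single_eq_same, map_one]
      · rw [Pi.single_eq_of_ne hl, Pi.single_eq_of_ne hl, map_zero]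
    rw [map_mul, map_wdg, h2]
    exact h1
  good_add s j hs := by
    obtain ⟨e⟩ := (inferInstance : Nonempty ι)
    exact (h e).good_add s j hs
  inj j hj s hs := inj_pull fun e => (h e).inj j hj s hs

theorem eigNE_pull {X : Matrix (Fin n) (Fin n) W} {c : ℕ → W}
    (h : ∀ e, EigNE (F e) (fun j t => π e (τ j t)) d (π e η) (X.map (π e)) (fun j => π e (c j))) :
    EigNE (RFam.pull π F) τ d η X c := by
  intro j ρ t
  refine (RFam.mem_pull_N).2 fun e => ?_
  have := h e j ρ t
  rw [map_mul, map_wdg]
  simpa [Matrix.map_apply] using this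

end Vale.Agent.P177.PI
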