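import Vale.Agent.P177.Flag.Rel
import Vale.Agent.P177.Flag.PackE

/-!
P177, block LEVGLUE (A): the graded family over the product ring `∏ C_e`, from the families
`famJ` at the levels; `ColN`, `SkoN` and the degree conditions of the flag
formula.
-/

namespace Vale.Agent.P177.PI

open WittVector Vale.Agent.P177.Flag

universe u v w

section family

variable (p : ℕ) [hp : Fact p.Prime] {ι : Type v} [Nonempty ι] {C : ι → Type w}
  [∀ e, CommRing (C e)] [∀ e, CharP (C e) p] [∀ e, PerfectRing (C e) p] {r : ℕ}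

/-- the product ideals. -/
def JP (I : ∀ e, Fin r → Ideal (C e)) (s : Fin r → ℤ) : Ideal (∀ e, C e) :=
  Ideal.pi fun e => JJ p (I e) s

omit [Nonempty ι] [∀ e, PerfectRing (C e) p] in
theorem isPerf_JP (I : ∀ e, Fin r → Ideal (C e)) (s : Fin r → ℤ) : IsPerf p (JP p I s) :=
  isPerf_pi p fun e => isPerf_JJ p (I e) s

/-- the graded family over the product. -/
noncomputable def famP (I : ∀ e, Fin r → Ideal (C e)) (t : ∀ e, C e) (N : ℕ) :
    RFam (WittVector p (∀ e, C e)) (Fin r → ℤ) :=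
  RFam.pull (prj p C) fun e => famJ p (I e) (t e) N

attribute [local instance] charP_pi perfectRing_pi

theorem famP_M (I : ∀ e, Fin r → Ideal (C e)) (t : ∀ e, C e) (N : ℕ) (s : Fin r → ℤ) :
    (famP p I t N).M s = WI p (JP p I s) := by
  ext x
  rw [famP, RFam.mem_pull_M, JP, mem_WI_pi p fun e => isPerf_JJ p (I e) s]
  rfl

theorem famP_N (I : ∀ e, Fin r → Ideal (C e)) (t : ∀ e, C e) (N : ℕ) (s : Fin r → ℤ) :
    (famP p I t N).N s = XI p t N * WI p (JP p I s) := by
  ext x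
  rw [famP, RFam.mem_pull_N, JP, mem_XI_mul_WI_pi p fun e => isPerf_JJ p (I e) s]
  rfl

end family

section degrees

/-- the base degree. -/
def sb (n : ℕ) : Fin n → ℤ := fun _ => (n : ℤ) ^ n + 3

theorem gd_sb (n : ℕ) : gd n (sb n) := by
  intro i
  unfold sb
  have : (0 : ℤ) ≤ (n : ℤ) ^ n := by positivity
  linarith

theorem gd_sb_sub (n j : ℕ) : gd n (sb n + dg n j - dg n (j + 1)) := by
  intro i
  have h2 := dg_nonneg n j i
  have h3 := dg_le_one n (j + 1) i
  have : (0 : ℤ) ≤ (n : ℤ) ^ n := by positivity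
  rw [Pi.sub_apply, Pi.add_apply]
  unfold sb
  linarith

theorem gd_sb_sub' (n j : ℕ) : gd n (sb n - dg n j) := by
  intro i
  have h3 := dg_le_one n j i
  have : (0 : ℤ) ≤ (n : ℤ) ^ n := by positivity
  rw [Pi.sub_apply]
  unfold sb
  linarith

theorem gd_sb_sub_sub (n j : ℕ) : gd n (sb n + dg n j - dg n (j + 1) - dg n j) := by
  intro i
  have h2 := dg_le_one n j i
  have h3 := dg_le_one n (j + 1) i
  have h4 := dg_nonneg n j i
  have : (0 : ℤ) ≤ (n : ℤ) ^ n := by positivity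
  rw [Pi.sub_apply, Pi.sub_apply, Pi.add_apply]
  unfold sb
  linarith

theorem two_le_sb {n j : ℕ} (i : Fin n) : 2 ≤ (sb n + dg n j) i := by
  have h2 := dg_nonneg n j i
  have : (0 : ℤ) ≤ (n : ℤ) ^ n := by positivity
  rw [Pi.add_apply]
  unfold sb
  linarith

theorem pow_lt_sb {n j k : ℕ} (hj : j ≤ n) (i : Fin n) :
    ((n ^ j : ℕ) : ℤ) < (sb n + dg n k - dg n (k + 1)) i := by
  have h2 := dg_nonneg n k i
  have h3 := dg_le_one n (k + 1) i
  have hn : 0 < n := i.pos
  have h4 : ((n ^ j : ℕ) : ℤ) ≤ (n : ℤ) ^ n := by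
    exact_mod_cast Nat.pow_le_pow_right hn hj
  rw [Pi.sub_apply, Pi.add_apply]
  unfold sb
  linarith

end degrees

section flag

variable (p : ℕ) [hp : Fact p.Prime] {ι : Type v} [Nonempty ι] {C : ι → Type w}
  [∀ e, CommRing (C e)] [∀ e, CharP (C e) p] [∀ e, PerfectRing (C e) p] {n : ℕ}
  {I : ∀ e, Fin n → Ideal (C e)} (hI : ∀ e i, (I e i).FG) {t : ∀ e, C e}
  (ht : ∀ e, t e ∈ nonZeroDivisors (C e)) (N : ℕ)
  {τ : ∀ j : ℕ, (Fin j → Fin n) → WittVector p (∀ e, C e)}

attribute [local instance] charP_pi perfectRing_pi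

include hI ht

omit [Nonempty ι] in
theorem famP_colN (j : ℕ) (hj : j < n)
    (hτ : ∀ e, TauAt p (I e) (fun j t => prj p C e (τ j t)) (dg n) (j + 1) ⟨j, hj⟩) :
    ColN (famP p I t N) τ (dg n) (j + 1) (sb n + dg n j) :=
  colN_pull (exists_prj p) fun e => (hτ e).colN p (hI e) (ht e) N _ (two_le_sb _)

omit [Nonempty ι] in
theorem famP_skoN (j : ℕ) (hj : j < n) (h0 : ∀ t', τ 0 t' = 1)
    (hτ : ∀ e, ∀ h : 0 < j, TauAt p (I e) (fun j t => prj p C e (τ j t)) (dg n) j ⟨j - 1, by omega⟩) :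
    SkoN (famP p I t N) τ (dg n) j (sb n + dg n j - dg n (j + 1)) := by
  rcases Nat.eq_zero_or_pos j with rfl | hj0
  · exact skoN_pull (exists_prj p) fun e => skoN_zero p (fun t' => by
      rw [h0, map_one]) (dg_zero n) _ _
  · exact skoN_pull (exists_prj p) fun e => (hτ e hj0).skoN p (hI e) (ht e) N _
      (pow_lt_sb hj.le _)

end flag

end Vale.Agent.P177.PI
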