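import Vale.Agent.P177.Flag.Core

/-!
# P177: the graded pieces of the eigenflag filtration, packaged

`coordHom : K (j+1) s →+ M (s + d j - d (j+1))` is surjective with kernel `K j s`, and a matrix `X`
with `EigRel T X c` acts on the target by the scalar `c j`.
-/

namespace Vale.Agent.P177.Flag

open Finset

variable {P E G : Type*} [CommRing P] [AddCommGroup E] [Module P E] [AddCommGroup G] {n : ℕ}
  {T : ∀ j : ℕ, (Fin j → Fin n) → P} {d : ℕ → G} {M : G → AddSubgroup E}

/-- The coordinate map of the `(j+1)`-st graded piece. -/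
noncomputable def coordHom (hT : FlagRel T) (hM : Graded T d M) {j : ℕ} (hj : j < n) {s : G}
    (hcol : Col T d M (j + 1) (s + d j)) :
    (K T M (j + 1) s) →+ (M (s + d j - d (j + 1))) where
  toFun v := ⟨(exists_coord hT hM hj hcol v.2).choose, (exists_coord hT hM hj hcol v.2).choose_spec.1⟩
  map_zero' := by
    apply Subtype.ext
    have h := (exists_coord hT hM hj hcol (K T M (j + 1) s).zero_mem).choose_spec
    refine coord_unique (j := j + 1) hM hj h.1 (AddSubgroup.zero_mem _) rfl fun t => ?_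
    have h2 := h.2 t
    refine h2.symm.trans ?_
    rw [wdg_zero]
    simp
  map_add' v w := by
    apply Subtype.ext
    have hv := (exists_coord hT hM hj hcol v.2).choose_spec
    have hw := (exists_coord hT hM hj hcol w.2).choose_spec
    have hvw := (exists_coord hT hM hj hcol (v + w).2).choose_spec
    refine coord_unique (j := j + 1) hM hj hvw.1 (AddSubgroup.add_mem _ hv.1 hw.1) rfl fun t => ?_
    refine (hvw.2 t).symm.trans ?_
    change wdg (T j) ((v : Fin n → E) + (w : Fin n → E)) t = T (j + 1) t • (_ + _)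
    rw [smul_add, wdg_add, hv.2 t, hw.2 t]

theorem coordHom_spec (hT : FlagRel T) (hM : Graded T d M) {j : ℕ} (hj : j < n) {s : G}
    (hcol : Col T d M (j + 1) (s + d j)) (v : K T M (j + 1) s) (t : Fin (j + 1) → Fin n) :
    wdg (T j) (v : Fin n → E) t = T (j + 1) t • ((coordHom hT hM hj hcol v : M _) : E) :=
  (exists_coord hT hM hj hcol v.2).choose_spec.2 t

theorem coordHom_eq (hT : FlagRel T) (hM : Graded T d M) {j : ℕ} (hj : j < n) {s : G}
    (hcol : Col T d M (j + 1) (s + d j)) (v : K T M (j + 1) s) (a : M (s + d j - d (j + 1)))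
    (h : ∀ t, wdg (T j) (v : Fin n → E) t = T (j + 1) t • (a : E)) :
    coordHom hT hM hj hcol v = a := by
  apply Subtype.ext
  refine coord_unique (j := j + 1) hM hj (coordHom hT hM hj hcol v).2 a.2 rfl fun t => ?_
  rw [← coordHom_spec, h]

theorem coordHom_surjective (hT : FlagRel T) (hM : Graded T d M) {j : ℕ} (hj : j < n) {s : G}
    (hcol : Col T d M (j + 1) (s + d j)) (hsko : Sko T d M j (s + d j - d (j + 1))) :
    Function.Surjective (coordHom hT hM hj hcol) := by
  intro a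
  obtain ⟨v, hv, h⟩ := exists_of_coord hT hM hsko a.2
  exact ⟨⟨v, hv⟩, coordHom_eq hT hM hj hcol ⟨v, hv⟩ a h⟩

theorem coordHom_eq_zero_iff (hT : FlagRel T) (hM : Graded T d M) {j : ℕ} (hj : j < n) {s : G}
    (hcol : Col T d M (j + 1) (s + d j)) (v : K T M (j + 1) s) :
    coordHom hT hM hj hcol v = 0 ↔ (v : Fin n → E) ∈ K T M j s := by
  constructor
  · intro h
    refine ⟨v.2.1, fun t => ?_⟩
    rw [coordHom_spec hT hM hj hcol v t, h]
    simp
  · intro h
    refine coordHom_eq hT hM hj hcol v 0 fun t => ?_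
    rw [h.2 t]
    simp

/-- `X` preserves `K (j+1)`. -/
theorem act_mem_K (hT : FlagRel T) (hM : Graded T d M) {X : Matrix (Fin n) (Fin n) P}
    {c : ℕ → P} (hX : EigRel T X c) {j : ℕ} (hj : j < n) {s : G}
    (hXM : ∀ i l, ∀ e ∈ M s, X i l • e ∈ M s)
    (hcM : ∀ e ∈ M s, c j • e ∈ M s) {v : Fin n → E} (hv : v ∈ K T M (j + 1) s) :
    act X v ∈ K T M (j + 1) s := by
  have h1 : act X v - c j • v ∈ K T M (j + 1) s :=
    K_mono hT hM j hj s (eig_mem hM hX hj hXM hcM hv)
  have h2 : c j • v ∈ K T M (j + 1) s :=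
    ⟨fun i => hcM _ (hv.1 i), fun t => by rw [wdg_smul, hv.2, smul_zero]⟩
  have := (K T M (j + 1) s).add_mem h1 h2
  rwa [sub_add_cancel] at this

/-- On the coordinates of the `(j+1)`-st graded piece `X` acts as the scalar `c j`. -/
theorem coordHom_act (hT : FlagRel T) (hM : Graded T d M) {X : Matrix (Fin n) (Fin n) P}
    {c : ℕ → P} (hX : EigRel T X c) {j : ℕ} (hj : j < n) {s : G}
    (hXM : ∀ i l, ∀ e ∈ M s, X i l • e ∈ M s)
    (hcM : ∀ s', ∀ e ∈ M s', c j • e ∈ M s') (hcol : Col T d M (j + 1) (s + d j))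
    (v : K T M (j + 1) s) (hv : act X (v : Fin n → E) ∈ K T M (j + 1) s) :
    ((coordHom hT hM hj hcol ⟨act X v, hv⟩ : M _) : E)
      = c j • ((coordHom hT hM hj hcol v : M _) : E) := by
  have h1 := eig_mem hM hX hj hXM (hcM s) v.2
  have h5 : ∀ t, wdg (T j) (act X (v : Fin n → E)) t
      = T (j + 1) t • (c j • ((coordHom hT hM hj hcol v : M _) : E)) := by
    intro t
    have h6 := h1.2 t
    rw [sub_eq_add_neg, wdg_add, wdg_neg, wdg_smul, add_neg_eq_zero] at h6
    rw [h6, coordHom_spec hT hM hj hcol v t, smul_comm]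
  have h7 := coordHom_eq hT hM hj hcol ⟨act X v, hv⟩
    ⟨c j • ((coordHom hT hM hj hcol v : M _) : E), hcM _ _ (coordHom hT hM hj hcol v).2⟩ h5
  rw [h7]

/-- A scalar `r` preserving the subgroups acts compatibly. -/
theorem coordHom_smul (hT : FlagRel T) (hM : Graded T d M) {r : P} {j : ℕ} (hj : j < n) {s : G}
    (hr : ∀ s', ∀ e ∈ M s', r • e ∈ M s') (hcol : Col T d M (j + 1) (s + d j))
    (v : K T M (j + 1) s) (hv : r • (v : Fin n → E) ∈ K T M (j + 1) s) :
    ((coordHom hT hM hj hcol ⟨r • (v : Fin n → E), hv⟩ : M _) : E)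
      = r • ((coordHom hT hM hj hcol v : M _) : E) := by
  have h5 : ∀ t, wdg (T j) (r • (v : Fin n → E)) t
      = T (j + 1) t • (r • ((coordHom hT hM hj hcol v : M _) : E)) := by
    intro t
    rw [wdg_smul, coordHom_spec hT hM hj hcol v t, smul_comm]
  rw [coordHom_eq hT hM hj hcol ⟨r • (v : Fin n → E), hv⟩
    ⟨r • ((coordHom hT hM hj hcol v : M _) : E), hr _ _ (coordHom hT hM hj hcol v).2⟩ h5]

omit [AddCommGroup G] in
theorem smul_mem_K {r : P} {j : ℕ} {s : G} (hr : ∀ e ∈ M s, r • e ∈ M s) {v : Fin n → E}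
    (hv : v ∈ K T M j s) : r • v ∈ K T M j s :=
  ⟨fun i => hr _ (hv.1 i), fun t => by rw [wdg_smul, hv.2, smul_zero]⟩

end Vale.Agent.P177.Flag
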