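import Vale.Agent.P177.Flag.SumW
import Vale.Agent.P177.Flag.Tri
import Vale.Agent.P177.PI.FLim
import Vale.Agent.P177.PI.T3J
import Vale.Agent.P177.PI.Pack

/-!
# P177, block FREL: the eigenflag relations at one level

`b l ∈ Ω` finitely many elements of an extension of `Λ`, `c l ∈ C` such that every polynomial
relation between the `b l` holds for the Teichmueller representatives `[c l]` after multiplication
by `[η]`, modulo `(p - [t], p ^ M)`. If the coordinates of an eigenflag are among the `b l`, then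
the flag relations hold in the family `famJ` after multiplication by `[η] ^ (2 n + 1)`.
-/

namespace Vale.Agent.P177.PI

open Vale.Agent.P177.Flag Vale.Agent.P177.Perf Vale.Agent.P202.Mix WittVector

universe u

section defs

variable (p : ℕ) [hp : Fact p.Prime] {C : Type u} [CommRing C] {Λ : Type*} [CommRing Λ]
  {Ω : Type*} [CommRing Ω] [Algebra Λ Ω] {m n : ℕ}

/-- evaluation of polynomials at the Teichmueller representatives. -/
noncomputable def tev (φ : Λ →+* WittVector p C) (c : Fin m → C) :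
    MvPolynomial (Fin m) Λ →+* WittVector p C :=
  MvPolynomial.eval₂Hom φ fun l => teichmuller p (c l)

/-- the relations between the `b l` at one level. -/
structure LRel [CharP C p] [PerfectRing C p] (b : Fin m → Ω) (φ : Λ →+* WittVector p C)
    (c : Fin m → C) (t η : C) (q M : ℕ) : Prop where
  rel : ∀ f : MvPolynomial (Fin m) Λ, MvPolynomial.aeval b f = 0 →
    teichmuller p η * tev p φ c f ∈ XI p t M
  dvd : ∀ l, b l ≠ 0 → ∃ y, η = rt p q (c l) * y

/-- the Pluecker coordinates as polynomials. -/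
noncomputable def tauP (Λ : Type*) [CommRing Λ] (n : ℕ) (ix : ∀ j, (Fin j → Fin n) → Fin m)
    (j : ℕ) (t : Fin j → Fin n) : MvPolynomial (Fin m) Λ :=
  if j = 0 then 1 else if j ≤ n then MvPolynomial.X (ix j t) else 0

/-- the Pluecker coordinates in `W(C)`. -/
noncomputable def tauW (n : ℕ) (ix : ∀ j, (Fin j → Fin n) → Fin m) (c : Fin m → C)
    (j : ℕ) (t : Fin j → Fin n) : WittVector p C :=
  if j = 0 then 1 else if j ≤ n then teichmuller p (c (ix j t)) else 0

/-- the degrees. -/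
def dg (n : ℕ) (j : ℕ) : Fin n → ℤ := fun i => if (i : ℕ) + 1 = j then 1 else 0

/-- the ideals generated by the coordinates. -/
def IdR {C : Type u} [CommRing C] (n : ℕ) (ix : ∀ j, (Fin j → Fin n) → Fin m) (c : Fin m → C)
    (i : Fin n) : Ideal C :=
  Ideal.span (Set.range fun t : Fin ((i : ℕ) + 1) → Fin n => c (ix _ t))

/-- the good degrees. -/
def gd (n : ℕ) (s : Fin n → ℤ) : Prop := ∀ i, 1 ≤ s i

variable {ix : ∀ j, (Fin j → Fin n) → Fin m} {φ : Λ →+* WittVector p C} {c : Fin m → C}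
  {b : Fin m → Ω}

theorem dg_nonneg (n j : ℕ) (i : Fin n) : 0 ≤ dg n j i := by
  unfold dg
  split_ifs <;> omega

theorem dg_le_one (n j : ℕ) (i : Fin n) : dg n j i ≤ 1 := by
  unfold dg
  split_ifs <;> omega

theorem dg_zero (n : ℕ) : dg n 0 = 0 := by
  funext i
  unfold dg
  rw [if_neg (by omega)]
  rfl

theorem dg_succ (n : ℕ) (i : Fin n) : dg n ((i : ℕ) + 1) = Pi.single i 1 := by
  funext k
  unfold dg
  by_cases h : k = i
  · subst h
    rw [if_pos rfl, Pi.single_eq_same]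
  · rw [Pi.single_eq_of_ne h, if_neg]
    intro h1
    exact h (Fin.ext (by omega))

theorem tev_tauP (j : ℕ) (t : Fin j → Fin n) :
    tev p φ c (tauP Λ n ix j t) = tauW p n ix c j t := by
  unfold tauP tauW
  split_ifs
  · rw [map_one]
  · simp [tev]
  · rw [map_zero]

theorem aeval_tauP {v : ℕ → Fin n → Ω}
    (hix : ∀ j, 1 ≤ j → j ≤ n → ∀ t : Fin j → Fin n, b (ix j t) = detT v j t)
    (j : ℕ) (t : Fin j → Fin n) :
    MvPolynomial.aeval b (tauP Λ n ix j t) = detT v j t := by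
  unfold tauP
  split_ifs with h1 h2
  · subst h1
    rw [map_one, (flagRel_detT v).zero]
  · rw [MvPolynomial.aeval_X, hix j (by omega) h2]
  · rw [map_zero, detT_eq_zero_of_lt v (by omega)]

theorem tauW_zero (t : Fin 0 → Fin n) : tauW p n ix c 0 t = 1 := by
  unfold tauW
  rw [if_pos rfl]

theorem tauW_lt {j : ℕ} (hj : n < j) (t : Fin j → Fin n) : tauW p n ix c j t = 0 := by
  unfold tauW
  rw [if_neg (by omega), if_neg (by omega)]

end defs

section

variable (p : ℕ) [hp : Fact p.Prime] {C : Type u} [CommRing C] [CharP C p] [PerfectRing C p]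
  {Λ : Type*} [CommRing Λ] {Ω : Type*} [CommRing Ω] [Algebra Λ Ω] {m n : ℕ}
  {ix : ∀ j, (Fin j → Fin n) → Fin m} {φ : Λ →+* WittVector p C} {c : Fin m → C}
  {b : Fin m → Ω} {t η : C} {q M : ℕ}

omit [CharP C p] [PerfectRing C p] in
theorem tauAt (i : Fin n) :
    TauAt p (IdR n ix c) (tauW p n ix c) (dg n) ((i : ℕ) + 1) i where
  rep := by
    refine ⟨fun t => c (ix _ t), fun _ => 1, fun _ => one_mul 1, fun t => ?_, rfl⟩
    unfold tauW
    rw [if_neg (by omega), if_pos (by have := i.2; omega), one_mul]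
  deg := dg_succ n i

theorem fg_IdR (i : Fin n) : (IdR n ix c i).FG :=
  Submodule.fg_span (Set.finite_range _)

theorem tauW_mem (N : ℕ) (j : ℕ) (t' : Fin j → Fin n) :
    tauW p n ix c j t' ∈ (famJ p (IdR n ix c) t N).M (dg n j) := by
  rcases Nat.eq_zero_or_pos j with rfl | hj
  · rw [tauW_zero, dg_zero]
    exact (famJ p (IdR n ix c) t N).one
  · by_cases hjn : j ≤ n
    · obtain ⟨i, rfl⟩ : ∃ i, j = i + 1 := ⟨j - 1, by omega⟩
      exact (tauAt p (ix := ix) (c := c) ⟨i, by omega⟩).mem p N t'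
    · rw [tauW_lt p (by omega)]
      exact zero_mem _

theorem rt_prod {ι : Type*} (S : Finset ι) (e : ℕ) (f : ι → C) :
    rt p e (∏ i ∈ S, f i) = ∏ i ∈ S, rt p e (f i) := by
  unfold rt
  exact map_prod _ _ _

variable {v : ℕ → Fin n → Ω}

/-- a relation holds inside the ideals after multiplication by `[η] ^ (2 n + 1)`. -/
theorem LRel.mem_N (h : LRel p b φ c t η q M) (ht : t ∈ nonZeroDivisors C) (hM : 0 < M) {N : ℕ}
    (hN : N * p ^ q ≤ M)
    (hix : ∀ j, 1 ≤ j → j ≤ n → ∀ t : Fin j → Fin n, b (ix j t) = detT v j t)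
    (hv : ∀ j ≤ n, ∃ t, detT v j t ≠ 0) {s : Fin n → ℤ} (hs : ∀ i, s i ≤ 2)
    {f : MvPolynomial (Fin m) Λ} (hf : MvPolynomial.aeval b f = 0)
    (hfM : tev p φ c f ∈ (famJ p (IdR n ix c) t N).M s) :
    teichmuller p η ^ (2 * n + 1) * tev p φ c f ∈ (famJ p (IdR n ix c) t N).N s := by
  choose l hl using fun i : Fin n => hv ((i : ℕ) + 1) i.2
  have hbl : ∀ i : Fin n, b (ix _ (l i)) ≠ 0 := fun i => by
    rw [hix _ (by omega) i.2]
    exact hl i
  choose y hy using fun i : Fin n => h.dvd _ (hbl i)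
  set g : C := ∏ i, c (ix _ (l i)) ^ 2 with hg
  have hgJ : g ∈ JJ p (IdR n ix c) s := by
    refine JJ_anti p (IdR n ix c) (s' := fun _ => 2) hs (le_perfHull ?_)
    unfold PPr
    refine Ideal.prod_mem_prod fun i _ => ?_
    have h1 : c (ix _ (l i)) ∈ IdR n ix c i := Ideal.subset_span (Set.mem_range_self (l i))
    exact Ideal.pow_mem_pow h1 2
  have hη : η ^ (2 * n) = (∏ i, y i ^ 2) * rt p q (g ^ 1) := by
    have h1 : η ^ (2 * n) = ∏ _i : Fin n, η ^ 2 := by
      rw [Finset.prod_const, Finset.card_univ, Fintype.card_fin, pow_mul]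
    rw [h1, pow_one, hg, rt_prod, ← Finset.prod_mul_distrib]
    refine Finset.prod_congr rfl fun i _ => ?_
    have h2 : rt p q (c (ix _ (l i)) ^ 2) = rt p q (c (ix _ (l i))) ^ 2 := by
      unfold rt
      exact map_pow _ _ _
    rw [h2, ← mul_pow, mul_comm (y i), ← hy]
  obtain ⟨I, rfl⟩ : ∃ I, M = I + 1 := ⟨M - 1, by omega⟩
  obtain ⟨a, w, haw⟩ := (mem_XI p).1 (h.rel f hf)
  have hx : teichmuller p η * tev p φ c f ∈ WI p (JJ p (IdR n ix c) s) :=
    Ideal.mul_mem_left _ _ hfM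
  obtain ⟨a', ha', w', hw', he⟩ := te_mul_mem p (isPerf_JJ p (IdR n ix c) s) ht hx I haw hgJ q 1 N
    (Nat.one_le_iff_ne_zero.2 (Nat.pow_pos hp.out.pos).ne') (by rw [mul_one]; exact hN)
  have h3 : teichmuller p η ^ (2 * n + 1) * tev p φ c f = teichmuller p (∏ i, y i ^ 2) *
      (teichmuller p (rt p q (g ^ 1)) * (teichmuller p η * tev p φ c f)) := by
    rw [pow_succ, ← map_pow, hη, map_mul]
    ring
  rw [h3, he, famJ_N]
  refine Ideal.mul_mem_left _ _ ((mem_XI_mul p).2 ⟨a', ha', w', hw', rfl⟩)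

omit [CharP C p] [PerfectRing C p] in
/-- the wedge of the coordinates is a polynomial. -/
theorem tev_wdg (j : ℕ) (P : Fin n → MvPolynomial (Fin m) Λ) (t' : Fin (j + 1) → Fin n) :
    tev p φ c (wdg (tauP Λ n ix j) P t') = wdg (tauW p n ix c j) (fun i => tev p φ c (P i)) t' := by
  rw [map_wdg]
  congr 1
  funext t
  exact tev_tauP p j t

theorem aeval_wdg
    (hix : ∀ j, 1 ≤ j → j ≤ n → ∀ t : Fin j → Fin n, b (ix j t) = detT v j t)
    (j : ℕ) (P : Fin n → MvPolynomial (Fin m) Λ) (t' : Fin (j + 1) → Fin n) :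
    MvPolynomial.aeval b (wdg (tauP Λ n ix j) P t') =
      wdg (detT v j) (fun i => MvPolynomial.aeval b (P i)) t' := by
  have h1 := map_wdg (MvPolynomial.aeval (R := Λ) b).toRingHom (tauP Λ n ix j) P t'
  have h2 : (fun t => (MvPolynomial.aeval (R := Λ) b).toRingHom (tauP Λ n ix j t)) = detT v j := by
    funext t
    exact aeval_tauP hix j t
  rw [h2] at h1
  exact h1

theorem gd_add (s : Fin n → ℤ) (j : ℕ) (hs : gd n s) : gd n (s + dg n j) := by
  intro i
  have h1 := hs i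
  have h2 := dg_nonneg n j i
  rw [Pi.add_apply]
  omega

/-- **FREL**: the flag data at one level. -/
theorem LRel.fDataE (h : LRel p b φ c t η q M) (ht : t ∈ nonZeroDivisors C) (hM : 0 < M) {N : ℕ}
    (hN : N * p ^ q ≤ M)
    (hix : ∀ j, 1 ≤ j → j ≤ n → ∀ t : Fin j → Fin n, b (ix j t) = detT v j t)
    (hv : ∀ j ≤ n, ∃ t, detT v j t ≠ 0) :
    FDataE (famJ p (IdR n ix c) t N) (tauW p n ix c) (dg n) (gd n)
      (teichmuller p η ^ (2 * n + 1)) where
  d_zero := dg_zero n
  mem := tauW_mem p N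
  zero := tauW_zero p
  same j ρ t' := by
    have h1 := tev_wdg p (φ := φ) (c := c) (ix := ix) (j + 1)
      (fun i => tauP Λ n ix (j + 1) (Fin.cons i ρ)) t'
    simp only [tev_tauP] at h1
    rw [← h1]
    refine h.mem_N p ht hM hN hix hv (fun i => ?_) ?_ ?_
    · have := dg_le_one n (j + 1) i
      rw [Pi.add_apply]
      omega
    · rw [aeval_wdg hix]
      simp only [aeval_tauP hix]
      exact (flagRel_detT v).same j ρ t'
    · rw [h1]
      exact wdg_mem_M (tauW_mem p N) (fun i => tauW_mem p N _ _) t'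
  incl j ρ t' := by
    have h1 := tev_wdg p (φ := φ) (c := c) (ix := ix) (j + 2)
      (fun i => tauP Λ n ix (j + 1) (Fin.cons i ρ)) t'
    simp only [tev_tauP] at h1
    rw [← h1]
    refine h.mem_N p ht hM hN hix hv (fun i => ?_) ?_ ?_
    · have := dg_le_one n (j + 1) i
      have := dg_le_one n (j + 2) i
      rw [Pi.add_apply]
      omega
    · rw [aeval_wdg hix]
      simp only [aeval_tauP hix]
      exact (flagRel_detT v).incl j ρ t'
    · rw [h1]
      exact wdg_mem_M (tauW_mem p N) (fun i => tauW_mem p N _ _) t'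
  step j ρ t' := by
    have h1 := tev_wdg p (φ := φ) (c := c) (ix := ix) j
      (fun i => tauP Λ n ix (j + 1) (Fin.cons i ρ)) t'
    simp only [tev_tauP] at h1
    have h2 : tev p φ c (wdg (tauP Λ n ix j) (fun i => tauP Λ n ix (j + 1) (Fin.cons i ρ)) t' -
        tauP Λ n ix j ρ * tauP Λ n ix (j + 1) t') =
        wdg (tauW p n ix c j) (fun i => tauW p n ix c (j + 1) (Fin.cons i ρ)) t' -
          tauW p n ix c j ρ * tauW p n ix c (j + 1) t' := by
      rw [map_sub, map_mul, h1, tev_tauP, tev_tauP]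
    rw [← h2]
    refine h.mem_N p ht hM hN hix hv (fun i => ?_) ?_ ?_
    · have := dg_le_one n (j + 1) i
      have := dg_le_one n j i
      rw [Pi.add_apply]
      omega
    · rw [map_sub, map_mul, aeval_wdg hix, aeval_tauP hix, aeval_tauP hix]
      simp only [aeval_tauP hix]
      rw [(flagRel_detT v).step j ρ t', sub_self]
    · rw [h2]
      exact sub_mem (wdg_mem_M (tauW_mem p N) (fun i => tauW_mem p N _ _) t')
        ((famJ p (IdR n ix c) t N).mul (tauW_mem p N _ _) (tauW_mem p N _ _))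
  top i t' := by
    have h1 := tev_wdg p (φ := φ) (c := c) (ix := ix) n
      (Pi.single i (1 : MvPolynomial (Fin m) Λ)) t'
    have h2 : (fun k => tev p φ c ((Pi.single i (1 : MvPolynomial (Fin m) Λ) :
        Fin n → MvPolynomial (Fin m) Λ) k)) = Pi.single i (1 : WittVector p C) := by
      funext k
      by_cases hk : k = i
      · subst hk
        rw [Pi.single_eq_same, Pi.single_eq_same, map_one]
      · rw [Pi.single_eq_of_ne hk, Pi.single_eq_of_ne hk, map_zero]
    rw [h2] at h1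
    rw [← h1]
    refine h.mem_N p ht hM hN hix hv (fun i => ?_) ?_ ?_
    · have := dg_le_one n n i
      omega
    · rw [aeval_wdg hix]
      exact wdg_detT_of_le v le_rfl _ t'
    · rw [h1]
      have h3 := wdg_mem_M (F := famJ p (IdR n ix c) t N) (tauW_mem p N) (j := n) (s := 0)
        (v := Pi.single i (1 : WittVector p C)) (fun k => RFam.mem_zero _ _) t'
      rwa [add_zero] at h3
  good_add := gd_add
  inj j hj s hs := by
    rcases Nat.eq_zero_or_pos j with rfl | hj0
    · exact inj_zero p (tauW_zero p) (dg_zero n) _ s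
    · obtain ⟨i, rfl⟩ : ∃ i, j = i + 1 := ⟨j - 1, by omega⟩
      exact (tauAt p (ix := ix) (c := c) ⟨i, by omega⟩).inj p fg_IdR ht N s (hs _)

theorem eig_mem_M (N : ℕ) (X : Matrix (Fin n) (Fin n) (WittVector p C)) (w : WittVector p C)
    (j : ℕ) (ρ : Fin j → Fin n) (i : Fin n) :
    (∑ l, X i l * tauW p n ix c (j + 1) (Fin.cons l ρ)) - w * tauW p n ix c (j + 1) (Fin.cons i ρ)
      ∈ (famJ p (IdR n ix c) t N).M (dg n (j + 1)) :=
  sub_mem (Ideal.sum_mem _ fun _ _ => Ideal.mul_mem_left _ _ (tauW_mem p N _ _))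
    (Ideal.mul_mem_left _ _ (tauW_mem p N _ _))

/-- **FREL**: the eigenvalue relations at one level, for an operator with matrix `X` over `Λ` and
polynomials `f j` representing the `j`-th eigencharacter. -/
theorem LRel.eigNA (h : LRel p b φ c t η q M) (ht : t ∈ nonZeroDivisors C) (hM : 0 < M) {N : ℕ}
    (hN : N * p ^ q ≤ M)
    (hix : ∀ j, 1 ≤ j → j ≤ n → ∀ t : Fin j → Fin n, b (ix j t) = detT v j t)
    (hv : ∀ j ≤ n, ∃ t, detT v j t ≠ 0) (X : Matrix (Fin n) (Fin n) Λ)
    (f : ℕ → MvPolynomial (Fin m) Λ)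
    (hX : ∀ j < n, ∀ (ρ : Fin j → Fin n) (t : Fin (j + 1) → Fin n),
      wdg (detT v j) (fun i => (∑ l, algebraMap Λ Ω (X i l) * detT v (j + 1) (Fin.cons l ρ)) -
        MvPolynomial.aeval b (f j) * detT v (j + 1) (Fin.cons i ρ)) t = 0) :
    EigNA (famJ p (IdR n ix c) t N) (tauW p n ix c) (dg n) (teichmuller p η ^ (2 * n + 1))
      (X.map φ) (fun j => tev p φ c (f j)) := by
  intro j hj ρ t'
  have h1 := tev_wdg p (φ := φ) (c := c) (ix := ix) j
    (fun i => (∑ l, MvPolynomial.C (X i l) * tauP Λ n ix (j + 1) (Fin.cons l ρ)) -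
      f j * tauP Λ n ix (j + 1) (Fin.cons i ρ)) t'
  have h2 : (fun i => tev p φ c ((∑ l, MvPolynomial.C (X i l) *
      tauP Λ n ix (j + 1) (Fin.cons l ρ)) - f j * tauP Λ n ix (j + 1) (Fin.cons i ρ))) =
      fun i => (∑ l, (X.map φ) i l * tauW p n ix c (j + 1) (Fin.cons l ρ)) -
        tev p φ c (f j) * tauW p n ix c (j + 1) (Fin.cons i ρ) := by
    funext i
    rw [map_sub, map_sum, map_mul, tev_tauP]
    congr 1
    refine Finset.sum_congr rfl fun l _ => ?_
    rw [map_mul, tev_tauP, Matrix.map_apply]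
    congr 1
    simp [tev]
  rw [h2] at h1
  rw [← h1]
  refine h.mem_N p ht hM hN hix hv (fun i => ?_) ?_ ?_
  · have := dg_le_one n (j + 1) i
    have := dg_le_one n j i
    rw [Pi.add_apply]
    omega
  · rw [aeval_wdg hix]
    have h3 : (fun i => MvPolynomial.aeval b ((∑ l, MvPolynomial.C (X i l) *
        tauP Λ n ix (j + 1) (Fin.cons l ρ)) - f j * tauP Λ n ix (j + 1) (Fin.cons i ρ))) =
        fun i => (∑ l, algebraMap Λ Ω (X i l) * detT v (j + 1) (Fin.cons l ρ)) -
          MvPolynomial.aeval b (f j) * detT v (j + 1) (Fin.cons i ρ) := by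
      funext i
      rw [map_sub, map_sum, map_mul, aeval_tauP hix]
      congr 1
      refine Finset.sum_congr rfl fun l _ => ?_
      rw [map_mul, aeval_tauP hix, MvPolynomial.aeval_C]
    rw [h3]
    exact hX j hj ρ t'
  · rw [h1]
    exact wdg_mem_M (tauW_mem p N) (fun i => eig_mem_M p N _ _ j ρ i) t'

/-- relations kill `M s / N s` up to `[η]`. -/
theorem LRel.mul_mem_N (h : LRel p b φ c t η q M) {N : ℕ} (hN : N ≤ M) {s : Fin n → ℤ}
    {f : MvPolynomial (Fin m) Λ} (hf : MvPolynomial.aeval b f = 0) {x : WittVector p C}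
    (hx : x ∈ (famJ p (IdR n ix c) t N).M s) :
    teichmuller p η * (tev p φ c f * x) ∈ (famJ p (IdR n ix c) t N).N s := by
  obtain ⟨a, w, haw⟩ := (mem_XI p).1 (h.rel f hf)
  obtain ⟨k, rfl⟩ := Nat.exists_eq_add_of_le hN
  rw [famJ_N, mem_XI_mul p]
  refine ⟨a * x, Ideal.mul_mem_left _ _ hx, (p : WittVector p C) ^ k * w * x,
    Ideal.mul_mem_left _ _ hx, ?_⟩
  rw [← mul_assoc, haw, pow_add]
  ring

end

section eig

variable (p : ℕ) [hp : Fact p.Prime] {C : Type u} [CommRing C] [CharP C p] [PerfectRing C p]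
  {Λ : Type*} [CommRing Λ] {Ω : Type*} [Field Ω] [Algebra Λ Ω] {m n : ℕ}
  {R : Type*} [CommRing R] [Algebra Λ R] {L : Type*} [AddCommGroup L] [Module Λ L] [Module R L]
  [IsScalarTower Λ R L] {bL : Module.Basis (Fin n) Λ L} {v : ℕ → Fin n → Ω}
  {σ : Fin n → R →ₐ[Λ] Ω}
  {ix : ∀ j, (Fin j → Fin n) → Fin m} {φ : Λ →+* WittVector p C} {c : Fin m → C}
  {b : Fin m → Ω} {t η : C} {q M : ℕ}

/-- **FREL** for an eigenflag: flag data. -/
theorem LRel.fDataE_flag (h : LRel p b φ c t η q M) (hfl : EigFlag bL v σ)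
    (ht : t ∈ nonZeroDivisors C) (hM : 0 < M) {N : ℕ} (hN : N * p ^ q ≤ M)
    (hix : ∀ j, 1 ≤ j → j ≤ n → ∀ t : Fin j → Fin n, b (ix j t) = detT v j t) :
    FDataE (famJ p (IdR n ix c) t N) (tauW p n ix c) (dg n) (gd n)
      (teichmuller p η ^ (2 * n + 1)) :=
  h.fDataE p ht hM hN hix hfl.exists_detT_ne_zero

/-- **FREL** for an eigenflag: eigenvalue relations of `r ∈ R`. -/
theorem LRel.eigNA_flag (h : LRel p b φ c t η q M) (hfl : EigFlag bL v σ)
    (ht : t ∈ nonZeroDivisors C) (hM : 0 < M) {N : ℕ} (hN : N * p ^ q ≤ M)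
    (hix : ∀ j, 1 ≤ j → j ≤ n → ∀ t : Fin j → Fin n, b (ix j t) = detT v j t)
    (r : R) (f : ℕ → MvPolynomial (Fin m) Λ)
    (hf : ∀ j (hj : j < n), MvPolynomial.aeval b (f j) = σ ⟨j, hj⟩ r) :
    EigNA (famJ p (IdR n ix c) t N) (tauW p n ix c) (dg n) (teichmuller p η ^ (2 * n + 1))
      ((actMat bL r).map φ) (fun j => tev p φ c (f j)) := by
  refine h.eigNA p ht hM hN hix hfl.exists_detT_ne_zero (actMat bL r) f fun j hj ρ t' => ?_
  have h1 := hfl.eigRel r j ρ t'
  simp only [dif_pos hj, Matrix.map_apply] at h1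
  rw [hf j hj]
  exact h1

end eig

end Vale.Agent.P177.PI
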